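import Vale.Agent.P076.H926.Base

/-! # P076 / H926 : bounds of the `L⁶` means by the energy on the tubes and by the mass on the ball of radius `R` -/

set_option autoImplicit false

open MeasureTheory Complex Set Vale.Agent.P122.C2 Vale.Agent.P122.AN Vale.Agent.P076.NS Vale.Agent.P076.H879
open scoped ENNReal NNReal FourierTransform

namespace Vale.Agent.P076.H926

/-- normalised mass on the ball of radius `R` -/
noncomputable def msl (k n : ℕ) (g : Z2 → E3 → ℂ) : ℝ≥0∞ :=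
  ENNReal.ofReal (((2:ℝ) ^ (2 * k * n))⁻¹) * ∑ θ ∈ desc k n 0 0, m1 k n g θ

theorem mem_desc0 {k n : ℕ} {θ : Z2} : θ ∈ desc k n 0 0 ↔ Cap n k θ := by
  rw [mem_desc]
  refine forall_congr' fun i => ?_
  rw [Nat.sub_zero]
  have h : (0:ℤ) < 2 ^ (k * n) := by positivity
  show θ i / 2 ^ (k * n) = 0 ↔ _
  constructor
  · intro h1
    have h2 := Int.emod_nonneg (θ i) h.ne'
    have h3 := Int.emod_lt_of_pos (θ i) h
    have h4 := Int.mul_ediv_add_emod (θ i) (2 ^ (k * n))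
    rw [h1] at h4
    constructor <;> linarith
  · rintro ⟨h1, h2⟩
    exact Int.ediv_eq_zero_of_lt h1 h2

theorem card_desc0 (k n : ℕ) : (desc k n 0 0).card = 2 ^ (2 * k * n) := by
  unfold desc
  rw [Fintype.card_piFinset, Fin.prod_univ_two]
  simp only [Int.card_Ico, Nat.sub_zero, Pi.zero_apply, mul_zero, zero_add, mul_one, sub_zero]
  have : ((2:ℤ) ^ (k * n)).toNat = 2 ^ (k * n) := by
    have h : ((2:ℤ) ^ (k * n)) = ((2 ^ (k * n) : ℕ) : ℤ) := by push_cast; rfl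
    rw [h, Int.toNat_natCast]
  rw [this, ← pow_add]
  congr 1
  ring

theorem enorm_sum_sq {ι : Type*} (G : Finset ι) (f : ι → ℂ) :
    ‖∑ i ∈ G, f i‖ₑ ^ 2 ≤ (G.card : ℝ≥0∞) * ∑ i ∈ G, ‖f i‖ₑ ^ 2 := by
  have h1 : ‖∑ i ∈ G, f i‖ ^ 2 ≤ (G.card : ℝ) * ∑ i ∈ G, ‖f i‖ ^ 2 :=
    (pow_le_pow_left₀ (norm_nonneg _) (norm_sum_le G f) 2).trans (sq_sum_le_card_mul_sum_sq)
  have e : ∀ w : ℂ, ‖w‖ₑ ^ 2 = ENNReal.ofReal (‖w‖ ^ 2) := by
    intro w; rw [ENNReal.ofReal_pow (norm_nonneg _), ofReal_norm]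
  simp only [e]
  rw [← ENNReal.ofReal_sum_of_nonneg (fun i _ => by positivity), ← ENNReal.ofReal_natCast, ← ENNReal.ofReal_mul (by positivity)]
  exact ENNReal.ofReal_le_ofReal h1

theorem card_le {k n : ℕ} {G : Finset Z2} (hG : G ⊆ desc k n 0 0) :
    (G.card : ℝ≥0∞) ≤ ENNReal.ofReal ((2:ℝ) ^ (2 * k * n)) := by
  have h := Finset.card_le_card hG
  rw [card_desc0] at h
  rw [← ENNReal.ofReal_natCast]
  refine ENNReal.ofReal_le_ofReal ?_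
  exact_mod_cast h

/-- pointwise bound by the energy on the tubes through the cube -/
theorem pt_uF (M : ℕ) (C0 : ℝ) (hC : 1 ≤ C0) : ∃ C : ℝ, 0 ≤ C ∧ ∀ (k n : ℕ) (g : Z2 → E3 → ℂ), 2 ≤ k → Par C0 k n g →
    ∀ (G : Finset Z2), G ⊆ desc k n 0 0 → ∀ (B : Fin 3 → ℤ) (z : E3),
      ‖sF g G z‖ₑ ^ 2 ≤ ENNReal.ofReal (C * 2 ^ (2 * k * n) * (1 + l1 (z - cB n B) / 2 ^ (2 * n)) ^ M) * uF M k n g G B := by
  obtain ⟨C, hC', H⟩ := pt_uc M C0 hC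
  refine ⟨C * 3 ^ M, by positivity, ?_⟩
  intro k n g hk hg G hG B z
  unfold sF uF
  refine (enorm_sum_sq G _).trans ?_
  rw [Finset.mul_sum, Finset.mul_sum]
  refine Finset.sum_le_sum fun θ hθ => ?_
  have hcap := mem_desc0.1 (hG hθ)
  have h1 := H k n g hg θ z (cB n B)
  have e1 : u1 M k n g θ B = uc M k n g θ (cB n B) := rfl
  have hL : (0:ℝ) < 2 ^ (k * n) := by positivity
  have hL3 : (2:ℝ) ^ (k * n) ≤ 2 ^ (2 * k * n) := by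
    apply pow_le_pow_right₀ (by norm_num)
    nlinarith
  have hg1 := gau_le_l1 hL hL3 (slp_le hcap) (z - cB n B)
  have h2n : (2:ℝ) ^ (2 * n) ≤ 2 ^ (k * n) := by
    apply pow_le_pow_right₀ (by norm_num)
    exact Nat.mul_le_mul_right n hk
  have hl := l1_nonneg (z - cB n B)
  have hg2 : l1 (z - cB n B) / 2 ^ (k * n) ≤ l1 (z - cB n B) / 2 ^ (2 * n) :=
    div_le_div_of_nonneg_left hl (by positivity) h2n
  have hg0 := gau_nonneg (θ := 0) (s := slp n k θ) hL hL (lt_of_lt_of_le hL hL3) (z - cB n B)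
  have hq : 0 ≤ l1 (z - cB n B) / 2 ^ (2 * n) := by positivity
  have h3 : (1 + gau 0 (2 ^ (k * n)) (2 ^ (k * n)) (2 ^ (2 * k * n)) (slp n k θ) (z - cB n B)) ^ M ≤
      3 ^ M * (1 + l1 (z - cB n B) / 2 ^ (2 * n)) ^ M := by
    rw [← mul_pow]
    refine pow_le_pow_left₀ (by linarith) ?_ M
    linarith
  rw [e1]
  calc (G.card : ℝ≥0∞) * ‖𝓕⁻ (g θ) z‖ₑ ^ 2 ≤ ENNReal.ofReal ((2:ℝ) ^ (2 * k * n)) *
        (ENNReal.ofReal (C * (1 + gau 0 (2 ^ (k * n)) (2 ^ (k * n)) (2 ^ (2 * k * n)) (slp n k θ) (z - cB n B)) ^ M) *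
          uc M k n g θ (cB n B)) := mul_le_mul' (card_le hG) h1
    _ ≤ ENNReal.ofReal ((2:ℝ) ^ (2 * k * n)) *
        (ENNReal.ofReal (C * (3 ^ M * (1 + l1 (z - cB n B) / 2 ^ (2 * n)) ^ M)) * uc M k n g θ (cB n B)) := by
        gcongr
    _ = _ := by
        rw [← mul_assoc, ← ENNReal.ofReal_mul (by positivity)]
        congr 2
        ring

/-- pointwise bound by the mass -/
theorem pt_ms (C0 : ℝ) (hC : 1 ≤ C0) : ∃ C : ℝ, 0 ≤ C ∧ ∀ (k n : ℕ) (g : Z2 → E3 → ℂ), Par C0 k n g →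
    ∀ (G : Finset Z2), G ⊆ desc k n 0 0 → ∀ (z : E3),
      ‖sF g G z‖ₑ ^ 2 ≤ ENNReal.ofReal (C * (1 + l1 z / 2 ^ (2 * k * n)) ^ 6) * msl k n g := by
  obtain ⟨C, hC', H⟩ := pt_m1 C0 hC
  refine ⟨C, hC', ?_⟩
  intro k n g hg G hG z
  unfold sF msl
  refine (enorm_sum_sq G _).trans ?_
  have hl := l1_nonneg z
  calc (G.card : ℝ≥0∞) * ∑ θ ∈ G, ‖𝓕⁻ (g θ) z‖ₑ ^ 2
      ≤ ENNReal.ofReal ((2:ℝ) ^ (2 * k * n)) * ∑ θ ∈ desc k n 0 0,
        ENNReal.ofReal (C * (1 + l1 z / 2 ^ (2 * k * n)) ^ 6 * ((2:ℝ) ^ (4 * k * n))⁻¹) * m1 k n g θ := by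
        refine mul_le_mul' (card_le hG) ?_
        refine (Finset.sum_le_sum_of_subset hG).trans (Finset.sum_le_sum fun θ hθ => H k n g hg θ (mem_desc0.1 hθ) z)
    _ = _ := by
        rw [← Finset.mul_sum, ← mul_assoc, ← mul_assoc, ← ENNReal.ofReal_mul (by positivity), ← ENNReal.ofReal_mul (by positivity)]
        congr 2
        have e : (2:ℝ) ^ (4 * k * n) = 2 ^ (2 * k * n) * 2 ^ (2 * k * n) := by rw [← pow_add]; congr 1; ring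
        rw [e]
        field_simp

/-- the weight of a cube -/
theorem wB_eq (M n : ℕ) (B : Fin 3 → ℤ) (z : E3) :
    wB M n B z = ENNReal.ofReal (((1 + l1 (z - cB n B) / 2 ^ (2 * n)) ^ M)⁻¹) := by
  unfold wB wg
  rw [gau_ball]

theorem b6_le_of : ∃ C : ℝ, 0 ≤ C ∧ ∀ (M n : ℕ) (B : Fin 3 → ℤ) (f : E3 → ℂ) (A : ℝ≥0∞),
    (∀ z, ‖f z‖ₑ ^ 6 * wB M n B z ≤ A * wB 4 n B z) → b6 M n B f ≤ ENNReal.ofReal C * A := by
  obtain ⟨C, hC, H⟩ := Vale.Agent.P122.W840.stWI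
  refine ⟨C, hC, ?_⟩
  intro M n B f A h
  unfold b6
  have h2 : (0:ℝ) < 2 ^ (2 * n) := by positivity
  have hw := H 4 0 (2 ^ (2 * n)) (2 ^ (2 * n)) (2 ^ (2 * n)) 0 (cB n B) le_rfl h2 h2 h2
  have hm : Measurable (wB 4 n B) := Vale.Agent.P122.AN275.measurable_wg_sub 4 0 _ _ _ 0 (cB n B)
  calc ENNReal.ofReal (((2:ℝ) ^ (6 * n))⁻¹) * ∫⁻ z, ‖f z‖ₑ ^ 6 * wB M n B z
      ≤ ENNReal.ofReal (((2:ℝ) ^ (6 * n))⁻¹) * ∫⁻ z, A * wB 4 n B z := mul_le_mul_right (lintegral_mono h) _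
    _ = ENNReal.ofReal (((2:ℝ) ^ (6 * n))⁻¹) * (A * ∫⁻ z, wB 4 n B z) := by rw [lintegral_const_mul _ hm]
    _ ≤ ENNReal.ofReal (((2:ℝ) ^ (6 * n))⁻¹) * (A * ENNReal.ofReal (C * (2 ^ (2 * n) * 2 ^ (2 * n) * 2 ^ (2 * n)))) := by
        gcongr
        exact hw
    _ = _ := by
        have e : (2:ℝ) ^ (2 * n) * 2 ^ (2 * n) * 2 ^ (2 * n) = 2 ^ (6 * n) := by rw [← pow_add, ← pow_add]; congr 1; ring
        rw [e, mul_left_comm, ← ENNReal.ofReal_mul (by positivity), mul_comm]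
        congr 2
        field_simp

/-- the cube is in the ball of radius `R` -/
def InQ (k n : ℕ) (B : Fin 3 → ℤ) : Prop := ∀ i, 0 ≤ B i ∧ B i < 2 ^ (2 * (k - 1) * n)

theorem cB_apply (n : ℕ) (B : Fin 3 → ℤ) (i : Fin 3) : cB n B i = 2 ^ (2 * n) * B i := by
  fin_cases i <;> rfl

theorem l1_cB {k n : ℕ} (hk : 1 ≤ k) {B : Fin 3 → ℤ} (hB : InQ k n B) : l1 (cB n B) ≤ 3 * 2 ^ (2 * k * n) := by
  have e : (2:ℝ) ^ (2 * k * n) = 2 ^ (2 * n) * 2 ^ (2 * (k - 1) * n) := by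
    rw [← pow_add]; congr 1
    obtain ⟨m, rfl⟩ : ∃ m, k = m + 1 := ⟨k - 1, by omega⟩
    rw [Nat.add_sub_cancel]; ring
  have h : ∀ i, |cB n B i| ≤ 2 ^ (2 * k * n) := by
    intro i
    obtain ⟨h1, h2⟩ := hB i
    rw [cB_apply, abs_mul, abs_of_pos (by positivity : (0:ℝ) < 2 ^ (2 * n)), e]
    have a1 : (0:ℝ) ≤ B i := by exact_mod_cast h1
    have a2 : (B i : ℝ) ≤ 2 ^ (2 * (k - 1) * n) := by exact_mod_cast h2.le
    rw [abs_of_nonneg a1]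
    gcongr
  unfold l1
  linarith [h 0, h 1, h 2]

theorem peetre_Q {k n : ℕ} (hk : 1 ≤ k) {B : Fin 3 → ℤ} (hB : InQ k n B) (z : E3) :
    1 + l1 z / 2 ^ (2 * k * n) ≤ 4 * (1 + l1 (z - cB n B) / 2 ^ (2 * n)) := by
  have h1 := l1_cB hk hB
  have h2 : l1 z ≤ l1 (z - cB n B) + l1 (cB n B) := by
    have := l1_add (z - cB n B) (cB n B)
    rwa [sub_add_cancel] at this
  have p : (0:ℝ) < 2 ^ (2 * k * n) := by positivity
  have h3 : l1 z / 2 ^ (2 * k * n) ≤ l1 (z - cB n B) / 2 ^ (2 * k * n) + 3 := by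
    rw [div_add' _ _ _ p.ne']
    exact div_le_div_of_nonneg_right (by linarith) p.le
  have h4 : l1 (z - cB n B) / 2 ^ (2 * k * n) ≤ l1 (z - cB n B) / 2 ^ (2 * n) := by
    refine div_le_div_of_nonneg_left (l1_nonneg _) (by positivity) ?_
    apply pow_le_pow_right₀ (by norm_num)
    exact Nat.mul_le_mul_right n (by omega)
  have h5 : 0 ≤ l1 (z - cB n B) / 2 ^ (2 * n) := div_nonneg (l1_nonneg _) (by positivity)
  linarith

/-- `L⁶` mean and mass -/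
theorem b6_ms (C0 : ℝ) (hC : 1 ≤ C0) : ∃ C : ℝ, 0 ≤ C ∧ ∀ (M k n : ℕ) (g : Z2 → E3 → ℂ), 22 ≤ M → 1 ≤ k → Par C0 k n g →
    ∀ (G : Finset Z2), G ⊆ desc k n 0 0 → ∀ B : Fin 3 → ℤ, InQ k n B → b6 M n B (sF g G) ≤ ENNReal.ofReal C * msl k n g ^ 3 := by
  obtain ⟨C1, hC1, H1⟩ := pt_ms C0 hC
  obtain ⟨C2, hC2, H2⟩ := b6_le_of
  refine ⟨C2 * (C1 * 4 ^ 6) ^ 3, by positivity, ?_⟩
  intro M k n g hM hk hg G hG B hB
  rw [ENNReal.ofReal_mul hC2, mul_assoc]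
  refine H2 M n B (sF g G) _ fun z => ?_
  rw [wB_eq, wB_eq]
  set q := 1 + l1 (z - cB n B) / 2 ^ (2 * n) with hq
  have hq1 : 1 ≤ q := by
    have h5 : 0 ≤ l1 (z - cB n B) / 2 ^ (2 * n) := div_nonneg (l1_nonneg _) (by positivity)
    linarith
  have hz := H1 k n g hg G hG z
  have hp := peetre_Q hk hB z
  rw [← hq] at hp
  have hl : 0 ≤ 1 + l1 z / 2 ^ (2 * k * n) := by
    have := l1_nonneg z
    positivity
  have hz' : ‖sF g G z‖ₑ ^ 2 ≤ ENNReal.ofReal (C1 * 4 ^ 6 * q ^ 6) * msl k n g := by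
    refine hz.trans (mul_le_mul_left (ENNReal.ofReal_le_ofReal ?_) _)
    have e6 : C1 * 4 ^ 6 * q ^ 6 = C1 * (4 * q) ^ 6 := by ring
    rw [e6]
    exact mul_le_mul_of_nonneg_left (pow_le_pow_left₀ hl hp 6) hC1
  calc ‖sF g G z‖ₑ ^ 6 * ENNReal.ofReal ((q ^ M)⁻¹) = (‖sF g G z‖ₑ ^ 2) ^ 3 * ENNReal.ofReal ((q ^ M)⁻¹) := by
        rw [← pow_mul]
    _ ≤ (ENNReal.ofReal (C1 * 4 ^ 6 * q ^ 6) * msl k n g) ^ 3 * ENNReal.ofReal ((q ^ M)⁻¹) := by gcongr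
    _ = ENNReal.ofReal ((C1 * 4 ^ 6) ^ 3) * msl k n g ^ 3 * ENNReal.ofReal (q ^ 18 * (q ^ M)⁻¹) := by
        rw [mul_pow, ← ENNReal.ofReal_pow (by positivity), mul_pow, ENNReal.ofReal_mul (by positivity), ← pow_mul,
          ENNReal.ofReal_mul (by positivity : (0:ℝ) ≤ q ^ 18)]
        ring
    _ ≤ ENNReal.ofReal ((C1 * 4 ^ 6) ^ 3) * msl k n g ^ 3 * ENNReal.ofReal ((q ^ 4)⁻¹) := by
        refine mul_le_mul_right (ENNReal.ofReal_le_ofReal ?_) _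
        rw [← div_eq_mul_inv, div_le_iff₀ (by positivity), inv_mul_eq_div, le_div_iff₀ (by positivity), ← pow_add]
        exact pow_le_pow_right₀ hq1 (by omega)

/-- `L⁶` mean, energy on the tubes and mass -/
theorem b6_uF (M : ℕ) (hM : 70 ≤ M) (C0 : ℝ) (hC : 1 ≤ C0) : ∃ C : ℝ, 0 ≤ C ∧ ∀ (k n : ℕ) (g : Z2 → E3 → ℂ), 2 ≤ k →
    Par C0 k n g → ∀ (G : Finset Z2), G ⊆ desc k n 0 0 → ∀ B : Fin 3 → ℤ, InQ k n B →
      b6 M n B (sF g G) ^ 4 ≤ ENNReal.ofReal (C * 2 ^ (6 * k * n)) * (uF M k n g G B ^ 3 * msl k n g ^ 9) := by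
  obtain ⟨C1, hC1, H1⟩ := pt_ms C0 hC
  obtain ⟨C2, hC2, H2⟩ := b6_le_of
  obtain ⟨C3, hC3, H3⟩ := pt_uF M C0 hC
  refine ⟨C2 ^ 4 * (C3 ^ 3 * (C1 * 4 ^ 6) ^ 9), by positivity, ?_⟩
  intro k n g hk hg G hG B hB
  set X : ℝ≥0∞ := ENNReal.ofReal (C3 ^ 3 * (C1 * 4 ^ 6) ^ 9 * 2 ^ (6 * k * n)) * (uF M k n g G B ^ 3 * msl k n g ^ 9) with hX
  have key : b6 M n B (sF g G) ≤ ENNReal.ofReal C2 * X ^ (1 / 4 : ℝ) := by
    refine H2 M n B (sF g G) _ fun z => ?_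
    rw [wB_eq, wB_eq]
    set q := 1 + l1 (z - cB n B) / 2 ^ (2 * n) with hq
    have hq1 : 1 ≤ q := by
      have h5 : 0 ≤ l1 (z - cB n B) / 2 ^ (2 * n) := div_nonneg (l1_nonneg _) (by positivity)
      linarith
    have hz := H1 k n g hg G hG z
    have hu := H3 k n g hk hg G hG B z
    rw [← hq] at hu
    have hp := peetre_Q (by omega) hB z
    rw [← hq] at hp
    have hl : 0 ≤ 1 + l1 z / 2 ^ (2 * k * n) := by
      have := l1_nonneg z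
      positivity
    have hz' : ‖sF g G z‖ₑ ^ 2 ≤ ENNReal.ofReal (C1 * 4 ^ 6 * q ^ 6) * msl k n g := by
      refine hz.trans (mul_le_mul_left (ENNReal.ofReal_le_ofReal ?_) _)
      have e6 : C1 * 4 ^ 6 * q ^ 6 = C1 * (4 * q) ^ 6 := by ring
      rw [e6]
      exact mul_le_mul_of_nonneg_left (pow_le_pow_left₀ hl hp 6) hC1
    have h4 : (‖sF g G z‖ₑ ^ 6 * ENNReal.ofReal ((q ^ M)⁻¹)) ^ 4 ≤ X * ENNReal.ofReal ((q ^ 4)⁻¹) ^ 4 := by
      calc (‖sF g G z‖ₑ ^ 6 * ENNReal.ofReal ((q ^ M)⁻¹)) ^ 4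
          = (‖sF g G z‖ₑ ^ 2) ^ 3 * (‖sF g G z‖ₑ ^ 2) ^ 9 * ENNReal.ofReal ((q ^ M)⁻¹) ^ 4 := by
            rw [mul_pow, ← pow_mul, ← pow_mul, ← pow_mul, ← pow_add]
        _ ≤ (ENNReal.ofReal (C3 * 2 ^ (2 * k * n) * q ^ M) * uF M k n g G B) ^ 3 *
            (ENNReal.ofReal (C1 * 4 ^ 6 * q ^ 6) * msl k n g) ^ 9 * ENNReal.ofReal ((q ^ M)⁻¹) ^ 4 := by gcongr
        _ = (uF M k n g G B ^ 3 * msl k n g ^ 9) * (ENNReal.ofReal (C3 * 2 ^ (2 * k * n) * q ^ M) ^ 3 *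
            ENNReal.ofReal (C1 * 4 ^ 6 * q ^ 6) ^ 9 * ENNReal.ofReal ((q ^ M)⁻¹) ^ 4) := by ring
        _ = (uF M k n g G B ^ 3 * msl k n g ^ 9) * ENNReal.ofReal ((C3 * 2 ^ (2 * k * n) * q ^ M) ^ 3 *
            (C1 * 4 ^ 6 * q ^ 6) ^ 9 * ((q ^ M)⁻¹) ^ 4) := by
            rw [← ENNReal.ofReal_pow (by positivity), ← ENNReal.ofReal_pow (by positivity), ← ENNReal.ofReal_pow (by positivity),
              ← ENNReal.ofReal_mul (by positivity), ← ENNReal.ofReal_mul (by positivity)]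
        _ ≤ (uF M k n g G B ^ 3 * msl k n g ^ 9) * ENNReal.ofReal (C3 ^ 3 * (C1 * 4 ^ 6) ^ 9 * 2 ^ (6 * k * n) *
            ((q ^ 4)⁻¹) ^ 4) := by
            refine mul_le_mul_right (ENNReal.ofReal_le_ofReal ?_) _
            have e : (C3 * 2 ^ (2 * k * n) * q ^ M) ^ 3 * (C1 * 4 ^ 6 * q ^ 6) ^ 9 * ((q ^ M)⁻¹) ^ 4 =
                C3 ^ 3 * (C1 * 4 ^ 6) ^ 9 * 2 ^ (6 * k * n) * (q ^ 54 * (q ^ M)⁻¹) := by
              have e1 : (2:ℝ) ^ (6 * k * n) = (2 ^ (2 * k * n)) ^ 3 := by rw [← pow_mul]; congr 1; ring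
              rw [e1]
              have hqM : q ^ M ≠ 0 := by positivity
              field_simp
            rw [e]
            refine mul_le_mul_of_nonneg_left ?_ (by positivity)
            rw [← div_eq_mul_inv, div_le_iff₀ (by positivity), inv_pow, inv_mul_eq_div, le_div_iff₀ (by positivity), ← pow_mul,
              ← pow_add]
            exact pow_le_pow_right₀ hq1 (by omega)
        _ = _ := by
            rw [hX, ENNReal.ofReal_mul (by positivity), ENNReal.ofReal_pow (by positivity)]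
            ring
    have h5 := ENNReal.rpow_le_rpow h4 (by norm_num : (0:ℝ) ≤ 1 / 4)
    have e4 : ∀ a : ℝ≥0∞, (a ^ 4) ^ (1 / 4 : ℝ) = a := by
      intro a
      rw [← ENNReal.rpow_natCast, ← ENNReal.rpow_mul]
      norm_num
    rw [ENNReal.mul_rpow_of_nonneg _ _ (by norm_num), e4, e4] at h5
    exact h5
  have e5 : (X ^ (1 / 4 : ℝ)) ^ 4 = X := by
    rw [← ENNReal.rpow_natCast, ← ENNReal.rpow_mul]
    norm_num
  calc b6 M n B (sF g G) ^ 4 ≤ (ENNReal.ofReal C2 * X ^ (1 / 4 : ℝ)) ^ 4 := by gcongr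
    _ = ENNReal.ofReal (C2 ^ 4) * X := by rw [mul_pow, e5, ← ENNReal.ofReal_pow hC2]
    _ = _ := by
        rw [hX, ← mul_assoc, ← ENNReal.ofReal_mul (by positivity)]
        congr 2
        ring

end Vale.Agent.P076.H926
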