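import Vale.Agent.P122.AN275.Fin
import Vale.Agent.P122.H610.Flags
import Vale.Agent.P076.H879.Defs

/-! # P076 / H926 : gauges, pointwise bounds of the finest pieces (helper926) -/

set_option autoImplicit false

open MeasureTheory Complex Set Vale.Agent.P122.C2 Vale.Agent.P122.AN Vale.Agent.P076.NS Vale.Agent.P076.H879
open scoped ENNReal NNReal FourierTransform

namespace Vale.Agent.P076.H926

/-- the paraboloid is a surface in the sense of `P122.AN` -/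
theorem srfP {C0 : ℝ} (hC : 1 ≤ C0) : Srf C0 Set.univ hP id := by
  have h0 : 0 ≤ C0 := by linarith
  refine ⟨?_, ?_, ?_, ?_⟩
  · intro ξ _ η _
    exact le_mul_of_one_le_left (norm_nonneg _) hC
  · intro ξ _ η _
    exact le_mul_of_one_le_left (norm_nonneg _) hC
  · intro ξ _ η _
    have e : hP ξ - hP η + id η 0 * (ξ 0 - η 0) + id η 1 * (ξ 1 - η 1) = -((ξ 0 - η 0) ^ 2 + (ξ 1 - η 1) ^ 2) / 2 := by
      unfold hP; simp only [id]; ring
    have n0 := norm_le_pi_norm (ξ - η) 0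
    have n1 := norm_le_pi_norm (ξ - η) 1
    rw [Pi.sub_apply, Real.norm_eq_abs] at n0 n1
    have s0 : (ξ 0 - η 0) ^ 2 ≤ ‖ξ - η‖ ^ 2 := by rw [← sq_abs]; exact pow_le_pow_left₀ (abs_nonneg _) n0 2
    have s1 : (ξ 1 - η 1) ^ 2 ≤ ‖ξ - η‖ ^ 2 := by rw [← sq_abs]; exact pow_le_pow_left₀ (abs_nonneg _) n1 2
    rw [e, abs_le]
    have p0 := sq_nonneg (ξ 0 - η 0)
    have p1 := sq_nonneg (ξ 1 - η 1)
    have p2 : ‖ξ - η‖ ^ 2 ≤ C0 * ‖ξ - η‖ ^ 2 := le_mul_of_one_le_left (by positivity) hC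
    constructor <;> linarith
  · intro θ η _
    refine ⟨![-Real.cos θ, -Real.sin θ], ?_, ?_, ?_, ?_⟩
    · have h := Real.cos_sq_add_sin_sq θ
      have e : fw θ ![-Real.cos θ, -Real.sin θ] = -1 := by
        unfold fw
        simp only [Matrix.cons_val_zero, Matrix.cons_val_one]
        linarith
      rw [e, abs_neg, abs_one]
      exact inv_le_one_of_one_le₀ hC
    · simp only [Matrix.cons_val_zero, abs_neg]
      exact (Real.abs_cos_le_one θ).trans hC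
    · have e : (![-Real.cos θ, -Real.sin θ] : Fin 2 → ℝ) 1 = -Real.sin θ := rfl
      rw [e, abs_neg]
      exact (Real.abs_sin_le_one θ).trans hC
    · intro ξ _
      have e : fw θ (fun i => ξ i - η i) + (![-Real.cos θ, -Real.sin θ] : Fin 2 → ℝ) 0 * (id ξ 0 - id η 0) +
          (![-Real.cos θ, -Real.sin θ] : Fin 2 → ℝ) 1 * (id ξ 1 - id η 1) = 0 := by
        unfold fw
        simp only [Matrix.cons_val_zero, Matrix.cons_val_one, id]
        ring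
      rw [e, abs_zero]
      positivity

/-- the `ℓ¹` norm -/
noncomputable def l1 (z : E3) : ℝ := |z 0| + |z 1| + |z 2|

theorem l1_nonneg (z : E3) : 0 ≤ l1 z := by unfold l1; positivity

theorem l1_add (z w : E3) : l1 (z + w) ≤ l1 z + l1 w := by
  unfold l1
  have h0 : |(z + w) 0| ≤ |z 0| + |w 0| := abs_add_le _ _
  have h1 : |(z + w) 1| ≤ |z 1| + |w 1| := abs_add_le _ _
  have h2 : |(z + w) 2| ≤ |z 2| + |w 2| := abs_add_le _ _
  linarith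

theorem l1_neg (z : E3) : l1 (-z) = l1 z := by
  unfold l1
  have h0 : (-z) 0 = -(z 0) := rfl
  have h1 : (-z) 1 = -(z 1) := rfl
  have h2 : (-z) 2 = -(z 2) := rfl
  rw [h0, h1, h2, abs_neg, abs_neg, abs_neg]

/-- the gauge of a ball -/
theorem gau_ball (r : ℝ) (z : E3) : gau 0 r r r 0 z = l1 z / r := by
  unfold gau l1 fw fn dv
  simp only [Matrix.cons_val_zero, Matrix.cons_val_one, Real.cos_zero, Real.sin_zero, Pi.zero_apply]
  simp
  ring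

theorem gau_le_l1 {ρ ρ3 : ℝ} (h1 : 0 < ρ) (h3 : ρ ≤ ρ3) {s : Fin 2 → ℝ} (hs : ∀ k, |s k| ≤ 1) (z : E3) :
    gau 0 ρ ρ ρ3 s z ≤ 3 * (l1 z / ρ) := by
  have h2 : 0 < ρ3 := lt_of_lt_of_le h1 h3
  have a2 : |z 2| / ρ3 ≤ |z 2| / ρ := div_le_div_of_nonneg_left (abs_nonneg _) h1 h3
  have b : ∀ k : Fin 2, |dv s z k| ≤ |z k.castSucc| + |z 2| := by
    intro k
    have e : dv s z k = z k.castSucc - s k * z 2 := by fin_cases k <;> rfl
    rw [e]
    refine (abs_sub _ _).trans ?_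
    rw [abs_mul]
    have := mul_le_of_le_one_left (abs_nonneg (z 2)) (hs k)
    linarith
  have b0 : |dv s z 0| ≤ |z 0| + |z 2| := b 0
  have b1 : |dv s z 1| ≤ |z 1| + |z 2| := b 1
  unfold gau l1
  rw [Vale.Agent.P122.AN275.fw_zero_frame, Vale.Agent.P122.AN275.fn_zero_frame]
  have c0 : |dv s z 0| / ρ ≤ (|z 0| + |z 2|) / ρ := by gcongr
  have c1 : |dv s z 1| / ρ ≤ (|z 1| + |z 2|) / ρ := by gcongr
  have e : 3 * ((|z 0| + |z 1| + |z 2|) / ρ) = (|z 0| + |z 2|) / ρ + (|z 1| + |z 2|) / ρ + |z 2| / ρ + 2 * (|z 0| / ρ) +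
      2 * (|z 1| / ρ) := by ring
  have p0 : 0 ≤ |z 0| / ρ := by positivity
  have p1 : 0 ≤ |z 1| / ρ := by positivity
  rw [e]
  linarith

theorem l1_le_gau {ρ R : ℝ} (h1 : 0 < ρ) (h3 : ρ ≤ R) {s : Fin 2 → ℝ} (hs : ∀ k, |s k| ≤ 1) (z : E3) :
    l1 z / R ≤ 3 * gau 0 ρ ρ R s z := by
  have h2 : 0 < R := lt_of_lt_of_le h1 h3
  have b : ∀ k : Fin 2, |z k.castSucc| ≤ |dv s z k| + |z 2| := by
    intro k
    have e : z k.castSucc = dv s z k + s k * z 2 := by fin_cases k <;> simp [dv]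
    have h := abs_add_le (dv s z k) (s k * z 2)
    rw [← e, abs_mul] at h
    have := mul_le_of_le_one_left (abs_nonneg (z 2)) (hs k)
    linarith
  have b0 : |z 0| ≤ |dv s z 0| + |z 2| := b 0
  have b1 : |z 1| ≤ |dv s z 1| + |z 2| := b 1
  unfold gau l1
  rw [Vale.Agent.P122.AN275.fw_zero_frame, Vale.Agent.P122.AN275.fn_zero_frame]
  have c0 : |dv s z 0| / R ≤ |dv s z 0| / ρ := div_le_div_of_nonneg_left (abs_nonneg _) h1 h3
  have c1 : |dv s z 1| / R ≤ |dv s z 1| / ρ := div_le_div_of_nonneg_left (abs_nonneg _) h1 h3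
  have e : (|z 0| + |z 1| + |z 2|) / R ≤ (|dv s z 0| + |dv s z 1| + 3 * |z 2|) / R :=
    div_le_div_of_nonneg_right (by linarith) h2.le
  have e2 : (|dv s z 0| + |dv s z 1| + 3 * |z 2|) / R = |dv s z 0| / R + |dv s z 1| / R + 3 * (|z 2| / R) := by ring
  have p0 : 0 ≤ |dv s z 0| / ρ := by positivity
  have p1 : 0 ≤ |dv s z 1| / ρ := by positivity
  linarith

/-- slopes of caps -/
theorem slp_le {n i : ℕ} {τ : Z2} (h : Cap n i τ) (k : Fin 2) : |slp n i τ k| ≤ 1 := by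
  obtain ⟨h1, h2⟩ := h k
  unfold slp
  have p : (0:ℝ) < 2 ^ (i * n) := by positivity
  have e1 : (0:ℝ) ≤ τ k := by exact_mod_cast h1
  have e2 : (τ k : ℝ) ≤ 2 ^ (i * n) := by exact_mod_cast h2.le
  rw [abs_of_nonneg (div_nonneg e1 p.le), div_le_one p]
  exact e2

/-- comparison of weights -/
theorem wg_comp {M : ℕ} {c : ℝ} (hc : 1 ≤ c) {θ ρ1 ρ2 ρ3 θ' R1 R2 R3 : ℝ} {s s' : Fin 2 → ℝ} {z w : E3}
    (h1 : 0 ≤ gau θ ρ1 ρ2 ρ3 s z) (h2 : 0 ≤ gau θ' R1 R2 R3 s' w) (h : gau θ' R1 R2 R3 s' w ≤ c * gau θ ρ1 ρ2 ρ3 s z) :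
    wg M θ ρ1 ρ2 ρ3 s z ≤ ENNReal.ofReal (c ^ M) * wg M θ' R1 R2 R3 s' w := by
  unfold wg
  rw [← ENNReal.ofReal_mul (by positivity)]
  refine ENNReal.ofReal_le_ofReal ?_
  rw [← div_eq_mul_inv, le_div_iff₀ (by positivity), inv_mul_le_iff₀ (by positivity), ← mul_pow]
  refine pow_le_pow_left₀ (by linarith) ?_ M
  nlinarith

/-- the support of one finest piece -/
theorem dual_top {C0 : ℝ} {k n : ℕ} {g : Z2 → E3 → ℂ} (hC : 1 ≤ C0) (hg : Par C0 k n g) (θ : Z2) :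
    ∃ ξ0, ∀ ξ, g θ ξ ≠ 0 → Dual (cD C0) 0 (2 ^ (k * n)) (2 ^ (k * n)) (2 ^ (2 * k * n)) (slp n k θ) (ξ - ξ0) := by
  obtain ⟨ξ0, h⟩ := Vale.Agent.P122.AN275.dual_ex (c := cD C0) (srfP hC) hg hC le_rfl (le_refl k) θ
  refine ⟨ξ0, fun ξ hξ => h ξ ?_⟩
  unfold gs
  rw [desc_top, Finset.sum_singleton]
  exact hξ

theorem lint_shift_wt {f : E3 → ℝ≥0∞} {w w' : E3 → ℝ≥0∞} {c : ℝ≥0∞} (hc : c ≠ ⊤) (h : ∀ y, w y ≤ c * w' y) :
    ∫⁻ y, f y * w y ≤ c * ∫⁻ y, f y * w' y := by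
  rw [← lintegral_const_mul' _ _ hc]
  refine lintegral_mono fun y => ?_
  calc f y * w y ≤ f y * (c * w' y) := mul_le_mul_right (h y) _
    _ = c * (f y * w' y) := by ring

/-- energy of one finest piece on its tube through the point `c` -/
noncomputable def uc (M k n : ℕ) (g : Z2 → E3 → ℂ) (θ : Z2) (c : E3) : ℝ≥0∞ :=
  ENNReal.ofReal (((2:ℝ) ^ (4 * k * n))⁻¹) *
    ∫⁻ z, ‖𝓕⁻ (g θ) z‖ₑ ^ 2 * wg M 0 (2 ^ (k * n)) (2 ^ (k * n)) (2 ^ (2 * k * n)) (slp n k θ) (z - c)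

/-- pointwise bound of a finest piece by its energy on the tube through `c` -/
theorem pt_uc (M : ℕ) (C0 : ℝ) (hC : 1 ≤ C0) : ∃ C : ℝ, 0 ≤ C ∧ ∀ (k n : ℕ) (g : Z2 → E3 → ℂ), Par C0 k n g → ∀ (θ : Z2)
    (z c : E3), ‖𝓕⁻ (g θ) z‖ₑ ^ 2 ≤
      ENNReal.ofReal (C * (1 + gau 0 (2 ^ (k * n)) (2 ^ (k * n)) (2 ^ (2 * k * n)) (slp n k θ) (z - c)) ^ M) * uc M k n g θ c := by
  obtain ⟨C, hC', H⟩ := Vale.Agent.P122.R301.stREP M (cD C0) (by unfold cD; positivity)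
  refine ⟨C, hC', ?_⟩
  intro k n g hg θ z c
  obtain ⟨ξ0, hξ0⟩ := dual_top hC hg θ
  set ρ : ℝ := 2 ^ (k * n) with hρd
  have hρ : 0 < ρ := by positivity
  have hρ3 : (0:ℝ) < 2 ^ (2 * k * n) := by positivity
  have h1 := H 0 ρ ρ (2 ^ (2 * k * n)) (slp n k θ) ξ0 (g θ) hρ hρ hρ3 (hg.int θ) hξ0 z
  refine h1.trans ?_
  set G := 1 + gau 0 ρ ρ (2 ^ (2 * k * n)) (slp n k θ) (z - c) with hG
  have hG0 : 1 ≤ G := by
    have := gau_nonneg (θ := 0) (s := slp n k θ) hρ hρ hρ3 (z - c)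
    linarith
  have h2 : ∀ y, wg M 0 ρ ρ (2 ^ (2 * k * n)) (slp n k θ) (z - y) ≤
      ENNReal.ofReal (G ^ M) * wg M 0 ρ ρ (2 ^ (2 * k * n)) (slp n k θ) (y - c) := by
    intro y
    unfold wg
    rw [← ENNReal.ofReal_mul (by positivity)]
    refine ENNReal.ofReal_le_ofReal ?_
    have p := peetre (θ := 0) (s := slp n k θ) hρ hρ hρ3 z y c
    have g1 := gau_nonneg (θ := 0) (s := slp n k θ) hρ hρ hρ3 (z - y)
    have g2 := gau_nonneg (θ := 0) (s := slp n k θ) hρ hρ hρ3 (y - c)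
    rw [← hG] at p
    rw [← div_eq_mul_inv, le_div_iff₀ (by positivity), inv_mul_le_iff₀ (by positivity), ← mul_pow]
    refine pow_le_pow_left₀ (by linarith) ?_ M
    linarith [p, mul_comm G (1 + gau 0 ρ ρ (2 ^ (2 * k * n)) (slp n k θ) (z - y))]
  refine (mul_le_mul_right (lint_shift_wt ENNReal.ofReal_ne_top h2) _).trans (le_of_eq ?_)
  unfold uc
  rw [pw4, ← hρd, ENNReal.ofReal_mul hC', ENNReal.ofReal_mul hC']
  ring

/-- mass of the finest pieces on the ball of radius `R` -/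
noncomputable def m1 (k n : ℕ) (g : Z2 → E3 → ℂ) (θ : Z2) : ℝ≥0∞ :=
  ∫⁻ y, ‖𝓕⁻ (g θ) y‖ₑ ^ 2 * wg 6 0 (2 ^ (2 * k * n)) (2 ^ (2 * k * n)) (2 ^ (2 * k * n)) 0 y

/-- pointwise bound of a finest piece by its mass on the ball -/
theorem pt_m1 (C0 : ℝ) (hC : 1 ≤ C0) : ∃ C : ℝ, 0 ≤ C ∧ ∀ (k n : ℕ) (g : Z2 → E3 → ℂ), Par C0 k n g → ∀ (θ : Z2),
    Cap n k θ → ∀ z : E3, ‖𝓕⁻ (g θ) z‖ₑ ^ 2 ≤
      ENNReal.ofReal (C * (1 + l1 z / 2 ^ (2 * k * n)) ^ 6 * ((2:ℝ) ^ (4 * k * n))⁻¹) * m1 k n g θ := by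
  obtain ⟨C, hC', H⟩ := Vale.Agent.P122.R301.stREP 6 (cD C0) (by unfold cD; positivity)
  refine ⟨C * 3 ^ 6, by positivity, ?_⟩
  intro k n g hg θ hθ z
  obtain ⟨ξ0, hξ0⟩ := dual_top hC hg θ
  set ρ : ℝ := 2 ^ (k * n) with hρd
  set R : ℝ := 2 ^ (2 * k * n) with hRd
  have hρ : 0 < ρ := by positivity
  have hR : 0 < R := by positivity
  have hρR : ρ ≤ R := by
    rw [hρd, hRd]
    apply pow_le_pow_right₀ (by norm_num)
    nlinarith
  have h1 := H 0 ρ ρ R (slp n k θ) ξ0 (g θ) hρ hρ hR (hg.int θ) hξ0 z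
  refine h1.trans ?_
  set G := 1 + l1 z / R with hG
  have hl := l1_nonneg z
  have hG0 : 1 ≤ G := by
    have : 0 ≤ l1 z / R := by positivity
    linarith
  have h2 : ∀ y, wg 6 0 ρ ρ R (slp n k θ) (z - y) ≤ ENNReal.ofReal (3 ^ 6 * G ^ 6) * wg 6 0 R R R 0 y := by
    intro y
    have a1 : wg 6 0 ρ ρ R (slp n k θ) (z - y) ≤ ENNReal.ofReal (3 ^ 6) * wg 6 0 R R R 0 (z - y) := by
      refine wg_comp (by norm_num) (gau_nonneg hρ hρ hR _) (gau_nonneg hR hR hR _) ?_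
      rw [gau_ball]
      exact l1_le_gau hρ hρR (slp_le hθ) _
    refine a1.trans ?_
    have a2 : wg 6 0 R R R 0 (z - y) ≤ ENNReal.ofReal (G ^ 6) * wg 6 0 R R R 0 y := by
      unfold wg
      rw [← ENNReal.ofReal_mul (by positivity)]
      refine ENNReal.ofReal_le_ofReal ?_
      have p := peetre (θ := 0) (s := 0) hR hR hR z y 0
      rw [sub_zero, sub_zero, gau_ball, gau_ball, gau_ball] at p
      rw [gau_ball, gau_ball]
      have g1 : 0 ≤ l1 (z - y) / R := div_nonneg (l1_nonneg _) hR.le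
      have g2 : 0 ≤ l1 y / R := div_nonneg (l1_nonneg _) hR.le
      rw [← hG] at p
      rw [← div_eq_mul_inv, le_div_iff₀ (by positivity), inv_mul_le_iff₀ (by positivity), ← mul_pow]
      refine pow_le_pow_left₀ (by linarith) ?_ 6
      linarith [p, mul_comm G (1 + l1 (z - y) / R)]
    calc ENNReal.ofReal (3 ^ 6) * wg 6 0 R R R 0 (z - y) ≤ ENNReal.ofReal (3 ^ 6) * (ENNReal.ofReal (G ^ 6) * wg 6 0 R R R 0 y) :=
          mul_le_mul_right a2 _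
      _ = _ := by rw [← mul_assoc, ← ENNReal.ofReal_mul (by norm_num)]
  refine (mul_le_mul_right (lint_shift_wt ENNReal.ofReal_ne_top h2) _).trans (le_of_eq ?_)
  unfold m1
  rw [← mul_assoc, ← ENNReal.ofReal_mul (by positivity), pw4, ← hρd, ← hRd]
  congr 2
  ring

end Vale.Agent.P076.H926
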