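import Vale.Agent.P076.H926.Defs

/-! # P076 / H926 : interpolation of the local bound with the trivial bound -/

set_option autoImplicit false

open MeasureTheory Complex Set Vale.Agent.P122.C2 Vale.Agent.P122.AN Vale.Agent.P076.NS Vale.Agent.P076.H879
open scoped ENNReal NNReal FourierTransform

namespace Vale.Agent.P076.H926

theorem le_of_logb {x y : ℝ} (hx : 0 < x) (hy : 0 < y) (h : Real.logb 2 x ≤ Real.logb 2 y) : x ≤ y :=
  (Real.logb_le_logb (by norm_num) hx hy).1 h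

theorem logb_of_le {x y : ℝ} (hx : 0 < x) (h : x ≤ y) : Real.logb 2 x ≤ Real.logb 2 y :=
  Real.logb_le_logb_of_le (by norm_num) hx h

theorem logb_two_rpow (t : ℝ) : Real.logb 2 ((2:ℝ) ^ t) = t := Real.logb_rpow (by norm_num) (by norm_num)

theorem logb_rpow' {x : ℝ} (t : ℝ) : Real.logb 2 (x ^ t) = t * Real.logb 2 x ∨ x ≤ 0 := by
  rcases le_or_gt x 0 with h | h
  · exact Or.inr h
  · exact Or.inl (Real.logb_rpow_eq_mul_logb_of_pos h)

/-- interpolation -/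
theorem interp {c1 y Q γ T b C1 : ℝ} {k n : ℕ} (hc1 : 0 ≤ c1) (hc1' : c1 ≤ 1 / 6) (hy : 0 < y) (hQ : 0 < Q) (hγ : 0 < γ)
    (hT : 0 < T) (hb : 0 < b) (hC1 : 1 ≤ C1) (h1 : y ≤ Q * γ ^ (2 / 3 : ℝ) * 2 ^ (4 / 3 * (k * n : ℝ)) * T)
    (h2 : y ≤ 2 ^ (6 * k * n)) (h3 : 1 ≤ C1 * 2 ^ (5 * k * n) * b ^ 3 * γ * T ^ 9) (h4 : (2:ℝ) ^ (-(4 * n : ℝ)) ≤ γ) :
    y ≤ (Q ^ (1 - 3 * c1) * C1 * 2 ^ (7 * c1 * n + 16 * c1 * (k * n))) * b ^ c1 * γ ^ (2 / 3 : ℝ) *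
      2 ^ (4 / 3 * (k * n : ℝ)) * T := by
  have hC0 : 0 < C1 := by linarith
  have two : (0:ℝ) < 2 := by norm_num
  have g1 : 0 < γ ^ (2 / 3 : ℝ) := Real.rpow_pos_of_pos hγ _
  have g2 : (0:ℝ) < 2 ^ (4 / 3 * (k * n : ℝ)) := Real.rpow_pos_of_pos two _
  have g3 : 0 < Q ^ (1 - 3 * c1) := Real.rpow_pos_of_pos hQ _
  have g4 : (0:ℝ) < 2 ^ (7 * c1 * n + 16 * c1 * (k * n)) := Real.rpow_pos_of_pos two _
  have g5 : 0 < b ^ c1 := Real.rpow_pos_of_pos hb _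
  have e1 : Real.logb 2 (Q * γ ^ (2 / 3 : ℝ) * 2 ^ (4 / 3 * (k * n : ℝ)) * T) =
      Real.logb 2 Q + 2 / 3 * Real.logb 2 γ + 4 / 3 * (k * n : ℝ) + Real.logb 2 T := by
    rw [Real.logb_mul (by positivity) hT.ne', Real.logb_mul (by positivity) g2.ne', Real.logb_mul hQ.ne' g1.ne',
      logb_two_rpow, Real.logb_rpow_eq_mul_logb_of_pos hγ]
  have e2 : Real.logb 2 ((2:ℝ) ^ (6 * k * n)) = 6 * (k * n : ℝ) := by
    rw [← Real.rpow_natCast, logb_two_rpow]; push_cast; ring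
  have e3 : Real.logb 2 (C1 * 2 ^ (5 * k * n) * b ^ 3 * γ * T ^ 9) =
      Real.logb 2 C1 + 5 * (k * n : ℝ) + 3 * Real.logb 2 b + Real.logb 2 γ + 9 * Real.logb 2 T := by
    rw [Real.logb_mul (by positivity) (by positivity), Real.logb_mul (by positivity) hγ.ne', Real.logb_mul (by positivity)
      (by positivity), Real.logb_mul hC0.ne' (by positivity), Real.logb_pow, Real.logb_pow, Real.logb_pow,
      Real.logb_self_eq_one (by norm_num)]
    push_cast; ring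
  have l1 := logb_of_le hy h1
  have l2 := logb_of_le hy h2
  have l3 := logb_of_le one_pos h3
  have l4 := logb_of_le (Real.rpow_pos_of_pos two _) h4
  have l5 := logb_of_le one_pos hC1
  rw [e1] at l1
  rw [e2] at l2
  rw [Real.logb_one, e3] at l3
  rw [logb_two_rpow] at l4
  rw [Real.logb_one] at l5
  refine le_of_logb hy (by positivity) ?_
  rw [Real.logb_mul (by positivity) hT.ne', Real.logb_mul (by positivity) g2.ne', Real.logb_mul (by positivity) g1.ne',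
    Real.logb_mul (by positivity) g5.ne', Real.logb_mul (by positivity) g4.ne', Real.logb_mul g3.ne' hC0.ne',
    logb_two_rpow, logb_two_rpow, Real.logb_rpow_eq_mul_logb_of_pos hγ, Real.logb_rpow_eq_mul_logb_of_pos hQ,
    Real.logb_rpow_eq_mul_logb_of_pos hb]
  set ly := Real.logb 2 y
  set lQ := Real.logb 2 Q
  set lγ := Real.logb 2 γ
  set lT := Real.logb 2 T
  set lb := Real.logb 2 b
  set lC := Real.logb 2 C1
  have hkn : (0:ℝ) ≤ k * n := by positivity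
  have m1 := mul_le_mul_of_nonneg_left l1 (by linarith : 0 ≤ 1 - 3 * c1)
  have m2 := mul_le_mul_of_nonneg_left l2 (by linarith : 0 ≤ 3 * c1)
  have m3 := mul_nonneg (by linarith : 0 ≤ c1 / 3) l3
  have m4 := mul_le_mul_of_nonneg_left l4 (by linarith : 0 ≤ 5 / 3 * c1)
  have m5 := mul_nonneg (by linarith : 0 ≤ 1 - c1 / 3) l5
  have m6 := mul_nonneg hc1 hkn
  have m7 : 0 ≤ c1 * (n:ℝ) := by positivity
  linarith

/-- finiteness of the local mass -/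
theorem msl_lt (k n : ℕ) (g : Z2 → E3 → ℂ) : msl k n g < ⊤ := by
  unfold msl
  refine ENNReal.mul_lt_top ENNReal.ofReal_lt_top (ENNReal.sum_lt_top.2 fun θ _ => ?_)
  unfold m1
  obtain ⟨C, -, H⟩ := Vale.Agent.P122.W840.stWI
  have p : (0:ℝ) < 2 ^ (2 * k * n) := by positivity
  have hw := H 6 0 (2 ^ (2 * k * n)) (2 ^ (2 * k * n)) (2 ^ (2 * k * n)) 0 0 (by norm_num) p p p
  simp only [sub_zero] at hw
  have hm : Measurable (wg 6 0 (2 ^ (2 * k * n)) (2 ^ (2 * k * n)) (2 ^ (2 * k * n)) 0) := measurable_wg 6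
  calc ∫⁻ y, ‖𝓕⁻ (g θ) y‖ₑ ^ 2 * wg 6 0 (2 ^ (2 * k * n)) (2 ^ (2 * k * n)) (2 ^ (2 * k * n)) 0 y
      ≤ ∫⁻ y, ENNReal.ofReal (∫ v, ‖g θ v‖) ^ 2 * wg 6 0 (2 ^ (2 * k * n)) (2 ^ (2 * k * n)) (2 ^ (2 * k * n)) 0 y := by
        refine lintegral_mono fun z => mul_le_mul_left ?_ _
        refine pow_le_pow_left' ?_ 2
        rw [← ofReal_norm]
        exact ENNReal.ofReal_le_ofReal (norm_inv_le _ _)
    _ = ENNReal.ofReal (∫ v, ‖g θ v‖) ^ 2 * ∫⁻ y, wg 6 0 (2 ^ (2 * k * n)) (2 ^ (2 * k * n)) (2 ^ (2 * k * n)) 0 y :=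
        lintegral_const_mul _ hm
    _ < ⊤ := ENNReal.mul_lt_top (ENNReal.pow_lt_top ENNReal.ofReal_lt_top) (lt_of_le_of_lt hw ENNReal.ofReal_lt_top)

/-- what the hypotheses say about the local mass -/
theorem facts (M : ℕ) (hM : 70 ≤ M) (C0 : ℝ) (hC : 1 ≤ C0) : ∃ C : ℝ, 1 ≤ C ∧ ∀ (k n j : ℕ) (g : Z2 → E3 → ℂ)
    (Y : Finset (Fin 3 → ℤ)) (G : (Fin 3 → ℤ) → Finset Z2) (γ β b : ℝ), 2 ≤ k → HL C0 M k n j g Y G γ β b → Y.Nonempty →
      0 < (msl k n g).toReal ∧ β ^ 6 ≤ C * (msl k n g).toReal ^ 3 ∧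
        (b = 1 ∨ 1 ≤ C * 2 ^ (5 * k * n) * b ^ 3 * γ * ((msl k n g).toReal / β ^ 2) ^ 9) := by
  obtain ⟨C1, hC1, H1⟩ := b6_ms C0 hC
  obtain ⟨C2, hC2, H2⟩ := b6_uF M hM C0 hC
  refine ⟨C1 + C2 + 1, by linarith, ?_⟩
  intro k n j g Y G γ β b hk hL hY
  obtain ⟨B, hB⟩ := hY
  have hfin := msl_lt k n g
  set m := (msl k n g).toReal with hm
  have hm0 : 0 ≤ m := ENNReal.toReal_nonneg
  have em : msl k n g = ENNReal.ofReal m := (ENNReal.ofReal_toReal hfin.ne).symm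
  have h1 := (hL.amp B hB).trans (H1 M k n g (by omega) (by omega) hL.par (G B) (hL.sub B hB) B (hL.inQ B hB))
  rw [em, ← ENNReal.ofReal_pow hm0, ← ENNReal.ofReal_mul hC1] at h1
  have h1' := (ENNReal.ofReal_le_ofReal_iff (by positivity)).1 h1
  have hβ := hL.β0
  have hmpos : 0 < m := by
    rcases hm0.lt_or_eq with h | h
    · exact h
    · rw [← h] at h1'
      have : 0 < β ^ 6 := by positivity
      norm_num at h1'
      linarith
  refine ⟨hmpos, ?_, ?_⟩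
  · refine h1'.trans (mul_le_mul_of_nonneg_right (by linarith) (by positivity))
  · rcases hL.enr with h | h
    · exact Or.inl h
    · right
      have h2 := H2 k n g hk hL.par (G B) (hL.sub B hB) B (hL.inQ B hB)
      have h3 := h B hB
      have hb := hL.b0
      have hγ := hL.γ0
      set u := b * (β ^ 2 * (γ / 2 ^ (k * n)) ^ (1 / 3 : ℝ)) with hu
      have hu0 : 0 ≤ u := by positivity
      have h4 : ENNReal.ofReal (β ^ 6) ^ 4 ≤ ENNReal.ofReal (C2 * 2 ^ (6 * k * n)) * (ENNReal.ofReal u ^ 3 * ENNReal.ofReal m ^ 9) := by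
        refine (pow_le_pow_left' (hL.amp B hB) 4).trans (h2.trans ?_)
        rw [em]
        gcongr
      rw [← ENNReal.ofReal_pow (by positivity), ← ENNReal.ofReal_pow hu0, ← ENNReal.ofReal_pow hm0,
        ← ENNReal.ofReal_mul (by positivity), ← ENNReal.ofReal_mul (by positivity)] at h4
      have h5 := (ENNReal.ofReal_le_ofReal_iff (by positivity)).1 h4
      have e3 : u ^ 3 = b ^ 3 * β ^ 6 * (γ / 2 ^ (k * n)) := by
        have e4 : ((γ / 2 ^ (k * n)) ^ (1 / 3 : ℝ)) ^ 3 = γ / 2 ^ (k * n) := by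
          rw [← Real.rpow_natCast, ← Real.rpow_mul (by positivity)]
          norm_num
        rw [hu, mul_pow, mul_pow, e4]
        ring
      rw [e3] at h5
      have e5 : (2:ℝ) ^ (6 * k * n) = 2 ^ (5 * k * n) * 2 ^ (k * n) := by rw [← pow_add]; congr 1; ring
      rw [e5] at h5
      have p : (0:ℝ) < 2 ^ (k * n) := by positivity
      have e6 : C2 * (2 ^ (5 * k * n) * 2 ^ (k * n)) * (b ^ 3 * β ^ 6 * (γ / 2 ^ (k * n)) * m ^ 9) =
          (C2 * 2 ^ (5 * k * n) * b ^ 3 * γ * m ^ 9) * β ^ 6 := by field_simp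
      rw [e6] at h5
      have e7 : (β ^ 6) ^ 4 = (β ^ 2) ^ 9 * β ^ 6 := by ring
      rw [e7] at h5
      have h6 := le_of_mul_le_mul_right h5 (by positivity : 0 < β ^ 6)
      rw [div_pow, ← mul_div_assoc, le_div_iff₀ (by positivity), one_mul]
      refine h6.trans ?_
      have q : 0 ≤ 2 ^ (5 * k * n) * b ^ 3 * γ * m ^ 9 := by positivity
      nlinarith

/-- from the local bound to the local estimate -/
theorem lest_of {c1 C0 C : ℝ} {M k n j : ℕ} (hc1 : 0 ≤ c1) (hc1' : c1 ≤ 1 / 6) (hC : 1 ≤ C) (hCNT : StCNT) (hk : 2 ≤ k)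
    {g : Z2 → E3 → ℂ} {Y : Finset (Fin 3 → ℤ)} {G : (Fin 3 → ℤ) → Finset Z2} {γ β b : ℝ} (hL : HL C0 M k n j g Y G γ β b)
    (hY : Y.Nonempty) (hm : 0 < (msl k n g).toReal)
    (hf : b = 1 ∨ 1 ≤ C * 2 ^ (5 * k * n) * b ^ 3 * γ * ((msl k n g).toReal / β ^ 2) ^ 9) {Q A : ℝ} (hQ : 0 < Q)
    (h : β ^ 2 * Y.card ≤ Q * γ ^ (2 / 3 : ℝ) * 2 ^ (4 / 3 * (k * n : ℝ)) * (msl k n g).toReal)
    (hA1 : Q ≤ A) (hA2 : Q ^ (1 - 3 * c1) * C * 2 ^ (7 * c1 * n + 16 * c1 * (k * n)) ≤ A) :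
    ENNReal.ofReal (β ^ 2 * Y.card) ≤
      ENNReal.ofReal (A * b ^ c1 * γ ^ (2 / 3 : ℝ) * 2 ^ (4 / 3 * (k * n : ℝ))) * msl k n g := by
  have hfin := msl_lt k n g
  set m := (msl k n g).toReal with hmd
  have em : msl k n g = ENNReal.ofReal m := (ENNReal.ofReal_toReal hfin.ne).symm
  have hA0 : 0 < A := lt_of_lt_of_le hQ hA1
  have hb := hL.b0
  have hβ := hL.β0
  have hγ := hL.γ0
  have g1 : 0 < γ ^ (2 / 3 : ℝ) := Real.rpow_pos_of_pos hγ _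
  have g2 : (0:ℝ) < 2 ^ (4 / 3 * (k * n : ℝ)) := Real.rpow_pos_of_pos (by norm_num) _
  have g5 : 0 < b ^ c1 := Real.rpow_pos_of_pos hb _
  rw [em, ← ENNReal.ofReal_mul (by positivity)]
  refine ENNReal.ofReal_le_ofReal ?_
  rcases hf with h1 | h1
  · rw [h1, Real.one_rpow, mul_one]
    refine h.trans ?_
    gcongr
  · obtain ⟨-, k2, k3, -⟩ := hCNT k n Y γ (by omega) hγ hL.dim hL.inQ
    have hy : (0:ℝ) < Y.card := by exact_mod_cast hY.card_pos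
    have hβ2 : 0 < β ^ 2 := by positivity
    have h5 : (Y.card : ℝ) ≤ Q * γ ^ (2 / 3 : ℝ) * 2 ^ (4 / 3 * (k * n : ℝ)) * (m / β ^ 2) := by
      rw [← mul_div_assoc, le_div_iff₀ hβ2]
      linarith
    have h6 := interp (C1 := C) hc1 hc1' hy hQ hγ (div_pos hm hβ2) hb hC h5 k2 h1 (k3 hY)
    rw [← mul_div_assoc, le_div_iff₀ hβ2] at h6
    calc β ^ 2 * Y.card = Y.card * β ^ 2 := mul_comm _ _
      _ ≤ _ := h6
      _ ≤ _ := by gcongr

end Vale.Agent.P076.H926
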