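import Vale.Agent.P076.H926.Ext2
import Vale.Agent.P076.H926.Num

/-! # P076 / H926 : broad data give a broad family of amplitudes -/

set_option autoImplicit false

open MeasureTheory Complex Set Vale.Agent.P122.C2 Vale.Agent.P122.AN Vale.Agent.P076.NS Vale.Agent.P076.H879
  Vale.Agent.P122.H610
open scoped ENNReal NNReal FourierTransform

namespace Vale.Agent.P076.H926

/-- the cube of a starting cell -/
def Bx (n : ℕ) (x : Nd) : Fin 3 → ℤ := ![x.o 0 / 2 ^ (2 * n), x.o 1 / 2 ^ (2 * n), x.T / 2 ^ (2 * n)]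

theorem Bx_xB (n : ℕ) (B : Fin 3 → ℤ) : Bx n (xB n B) = B := by
  have p : (2:ℤ) ^ (2 * n) ≠ 0 := by positivity
  funext i
  fin_cases i
  · show 2 ^ (2 * n) * B 0 / 2 ^ (2 * n) = B 0
    exact Int.mul_ediv_cancel_left _ p
  · show 2 ^ (2 * n) * B 1 / 2 ^ (2 * n) = B 1
    exact Int.mul_ediv_cancel_left _ p
  · show 2 ^ (2 * n) * B 2 / 2 ^ (2 * n) = B 2
    exact Int.mul_ediv_cancel_left _ p

theorem xB_inj (n : ℕ) : Function.Injective (xB n) := fun B B' h => by rw [← Bx_xB n B, h, Bx_xB]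

theorem anc_mono {k n j j' : ℕ} (h1 : j ≤ j') (h2 : j' ≤ k) {θ θ' : Z2} (h : anc k n j' θ = anc k n j' θ') :
    anc k n j θ = anc k n j θ' := by
  have key : ∀ (t : Z2) i, anc k n j t i = anc k n j' t i / 2 ^ ((j' - j) * n) := by
    intro t i
    unfold anc
    rw [Int.ediv_ediv_of_nonneg (by positivity), ← pow_add]
    congr 2
    obtain ⟨m, rfl⟩ : ∃ m, k = m + j' := ⟨k - j', by omega⟩
    obtain ⟨l, rfl⟩ : ∃ l, j' = l + j := ⟨j' - j, by omega⟩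
    have e1 : m + (l + j) - (l + j) = m := by omega
    have e2 : l + j - j = l := by omega
    have e3 : m + (l + j) - j = m + l := by omega
    rw [e1, e2, e3]; ring
  funext i
  rw [key, key, h]

theorem uni_mono {k n j j' : ℕ} (h1 : j ≤ j') (h2 : j' ≤ k) {G : Finset Z2} (h : Uni k n j G) : Uni k n j' G :=
  fun θ hθ θ' hθ' he => h θ hθ θ' hθ' (anc_mono h1 h2 he)

/-- the amplitudes at the level `k` -/
theorem exists_F (k : ℕ) (C0 : ℝ) (hC0 : 1 ≤ C0) : ∃ C : ℝ, 1 ≤ C ∧ ∀ (n : ℕ) (g : Z2 → E3 → ℂ), Par C0 k n g →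
    ∃ F : Amp C n k, F.s = slp n ∧ F.a = aR k 9 n g := by
  obtain ⟨CL, hCL, hL⟩ := Vale.Agent.P122.AN275.lemL k 9 C0 hC0 Vale.Agent.P122.R301.stREP Vale.Agent.P122.W840.stWI
  obtain ⟨C1, hC1, h1⟩ := Vale.Agent.P122.AN275.lemB1 k 9 C0 hC0 Vale.Agent.P122.R301.stREP Vale.Agent.P122.H84.stORT
    Vale.Agent.P122.W840.stWS Vale.Agent.P122.W840.stWI
  obtain ⟨C2, hC2, h2⟩ := Vale.Agent.P122.AN275.lemB2 k 9 C0 hC0 Vale.Agent.P122.R301.stREP Vale.Agent.P122.H84.stORT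
    Vale.Agent.P122.W840.stWS Vale.Agent.P122.W840.stWI
  have hK0 : (0:ℝ) ≤ 3 * k := by positivity
  refine ⟨CL + C1 + C2 + 1 + 3 * k, by linarith, ?_⟩
  intro n g hg
  obtain ⟨F, hFs, hFa, -⟩ := exists_amp Vale.Agent.P122.W840.stWI (C := CL + C1 + C2 + 1 + 3 * k) (by norm_num) hL h1 h2 hCL
    hC1 hC2 (by linarith) (by linarith) (by linarith) (by linarith) (srfP hC0) hg
  exact ⟨F, hFs, hFa⟩

/-- **from broad data to a broad family** -/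
theorem brd_of (k j : ℕ) (hj : 2 ≤ j) (hjk : j ≤ k) (M : ℕ) (hM : 3 * ex k 9 j + 4 ≤ M) (C0 : ℝ) (hC0 : 1 ≤ C0) (c C : ℝ)
    (hc : 0 < c) : ∃ (n0 : ℕ) (C6 : ℝ), 1 ≤ n0 ∧ 0 < C6 ∧ ∀ n : ℕ, n0 ≤ n → ∀ (g : Z2 → E3 → ℂ)
      (Y : Finset (Fin 3 → ℤ)) (G : (Fin 3 → ℤ) → Finset Z2) (β : ℝ) (F : Amp C n k), F.s = slp n → F.a = aR k 9 n g →
      Par C0 k n g → 0 < β → (∀ B ∈ Y, InQ k n B) → (∀ B ∈ Y, G B ⊆ desc k n 0 0) → (∀ B ∈ Y, Uni k n j (G B)) →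
      (∀ B ∈ Y, ENNReal.ofReal (β ^ 6) ≤ b6 M n B (sF g (G B))) → (∀ B ∈ Y, BroadAt c M k n g (G B) β B) →
      ∃ H : Nd → Finset Z2, Brd F j (2 * j + 3) (c / 4) (β / C6) (Y.image (xB n)) H := by
  classical
  obtain ⟨n0, C6, hn0, hC6, H0⟩ := ext_cube k 9 M j (by norm_num) hj hjk hM C0 hC0 c C hc
  refine ⟨n0, C6, hn0, hC6, ?_⟩
  intro n hn g Y G β F hFs hFa hg hβ hQ hsub huni hamp hbr
  have hex : ∀ B ∈ Y, ∃ H : Finset Z2, H.Nonempty ∧ (∀ y ∈ H, Cap n j y) ∧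
        (∀ y ∈ H, β / C6 ≤ (2:ℝ) ^ ((2 * j + 3 : ℝ) * n) * aR k 9 n g j (pth (slp n) n j (xB n B) y)) ∧
        ∀ θ r : ℝ, ((H.filter fun y => |fn θ (slp n 1 (an n (j - 1) y)) - r| ≤ 8 * C / 2 ^ n).card : ℝ) ≤
          2 ^ (-(c / 4 * n)) * H.card := fun B hB =>
    H0 n hn g hg (G B) B β (hQ B hB) (hsub B hB) (huni B hB) hβ (hamp B hB) (hbr B hB)
  choose! H h1 h2 h3 h4 using hex
  refine ⟨fun x => H (Bx n x), ?_, ?_, ?_, ?_, ?_⟩
  · intro x hx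
    obtain ⟨B, hB, rfl⟩ := Finset.mem_image.1 hx
    have hR := rg_xB (k := k) (by omega) (hQ B hB)
    obtain ⟨r1, r2, -⟩ := hR
    rw [Nat.sub_zero] at r2
    exact ⟨rfl, r1, r2⟩
  · intro x hx
    obtain ⟨B, hB, rfl⟩ := Finset.mem_image.1 hx
    simp only [Bx_xB]
    exact h1 B hB
  · intro x hx
    obtain ⟨B, hB, rfl⟩ := Finset.mem_image.1 hx
    simp only [Bx_xB]
    exact h2 B hB
  · intro x hx
    obtain ⟨B, hB, rfl⟩ := Finset.mem_image.1 hx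
    simp only [Bx_xB, hFs, hFa]
    exact h3 B hB
  · intro x hx
    obtain ⟨B, hB, rfl⟩ := Finset.mem_image.1 hx
    simp only [Bx_xB, hFs]
    exact h4 B hB

end Vale.Agent.P076.H926
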