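import Vale.Agent.P076.H926.Path

/-! # P076 / H926 : the local estimate and the statements of the sub-blocks of `NS.KP` -/

set_option autoImplicit false

open MeasureTheory Complex Set Vale.Agent.P122.C2 Vale.Agent.P122.AN Vale.Agent.P076.NS Vale.Agent.P076.H879
open scoped ENNReal NNReal FourierTransform

namespace Vale.Agent.P076.H926

/-- the data of the local estimate: `Hyp` without `Lab`, all cubes in `[0, R)³` -/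
structure HL (C0 : ℝ) (M k n j : ℕ) (g : Z2 → E3 → ℂ) (Y : Finset (Fin 3 → ℤ)) (G : (Fin 3 → ℤ) → Finset Z2)
    (γ β b : ℝ) : Prop where
  par : Par C0 k n g
  γ0 : 0 < γ
  dim : Dim2 k n Y γ
  β0 : 0 < β
  b0 : 0 < b
  b1 : b ≤ 1
  sub : ∀ B ∈ Y, G B ⊆ desc k n 0 0
  uni : ∀ B ∈ Y, Uni k n j (G B)
  amp : ∀ B ∈ Y, ENNReal.ofReal (β ^ 6) ≤ b6 M n B (sF g (G B))
  enr : b = 1 ∨ ∀ B ∈ Y, uF M k n g (G B) B ≤ ENNReal.ofReal (b * (β ^ 2 * (γ / 2 ^ (k * n)) ^ (1 / 3 : ℝ)))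
  inQ : ∀ B ∈ Y, InQ k n B

/-- the local estimate; `br` = broad data only -/
def LEst (br : Prop) (c1 C0 c : ℝ) (M k n j : ℕ) (A : ℝ) : Prop :=
  ∀ (g : Z2 → E3 → ℂ) (Y : Finset (Fin 3 → ℤ)) (G : (Fin 3 → ℤ) → Finset Z2) (γ β b : ℝ),
    HL C0 M k n j g Y G γ β b → (br → ∀ B ∈ Y, BroadAt c M k n g (G B) β B) →
    ENNReal.ofReal (β ^ 2 * Y.card) ≤
      ENNReal.ofReal (A * b ^ c1 * γ ^ (2 / 3 : ℝ) * 2 ^ (4 / 3 * (k * n : ℝ))) * msl k n g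

/-- [GLOB] from the local estimate to the estimate (translations by `R ℤ³`, sum of the local masses) -/
def StGLOB : Prop := ∃ C : ℝ, 1 ≤ C ∧ ∀ (br : Prop) (c1 C0 c : ℝ) (M k n j N : ℕ) (A : ℝ), 1 ≤ k → 0 ≤ A →
  LEst br c1 C0 c M k n j A → ∀ (g : Z2 → E3 → ℂ) (Y : Finset (Fin 3 → ℤ)) (G : (Fin 3 → ℤ) → Finset Z2) (γ β b : ℝ),
    Hyp C0 M k n j N g Y G γ β b → (br → ∀ B ∈ Y, BroadAt c M k n g (G B) β B) → Est c1 k n g Y γ β b (C * A)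

/-- [CNT] counting -/
def StCNT : Prop := ∀ (k n : ℕ) (Y : Finset (Fin 3 → ℤ)) (γ : ℝ), 1 ≤ k → 0 < γ → Dim2 k n Y γ → (∀ B ∈ Y, InQ k n B) →
  (Y.card : ℝ) ≤ γ * 2 ^ (4 * k * n) ∧ (Y.card : ℝ) ≤ 2 ^ (6 * k * n) ∧ (Y.Nonempty → (2:ℝ) ^ (-(4 * n : ℝ)) ≤ γ) ∧
  ∀ (r : ℕ) (x0 : Nd), r ≤ 2 * k * n →
    (((Y.image (xB n)).filter fun x => |x.T - x0.T| ≤ 2 ^ r ∧ ∀ i, |x.o i - x0.o i| ≤ 2 ^ r).card : ℝ) ≤
      8 * (1 + γ) * 2 ^ (2 * r)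

/-- [ENR] the amplitudes of the last level and the mass on the ball of radius `R` -/
def StENR : Prop := ∀ k : ℕ, ∃ C : ℝ, 0 ≤ C ∧ ∀ (n : ℕ) (g : Z2 → E3 → ℂ), (∀ θ, Integrable (g θ)) → ∀ U : Finset Nd,
  ∑ S ∈ U, ENNReal.ofReal (aR k 9 n g k S ^ 2) ≤ ENNReal.ofReal (C * ((2:ℝ) ^ (2 * k * n))⁻¹) * msl k n g

end Vale.Agent.P076.H926
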