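import Mathlib.Analysis.SpecialFunctions.Pow.Real
import Mathlib.Analysis.Convex.SpecificFunctions.Basic
import Mathlib.Tactic.Linarith

/-! # P076 / H926 : extraction of a spread set (abstract) -/

set_option autoImplicit false

namespace Vale.Agent.P076.H926

open Finset

/-- **extraction of a spread set**: `N` is subadditive, the sets with `P` are small; then there is a nonempty set of significant
points in which the sets with `P` have proportion at most `q`. -/
theorem exists_spread {ι : Type*} [DecidableEq ι] (U : Finset ι) (N : Finset ι → ℝ) (hN : ∀ s, 0 ≤ N s)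
    (hadd : ∀ s t, s ⊆ U → t ⊆ U → Disjoint s t → N (s ∪ t) ≤ N s + N t) (h0 : N ∅ = 0) {β δ q η τ0 : ℝ} (hβ : 0 < β)
    (hη : 0 < η) (hη1 : η ≤ 1) (hq : 0 < q) (hq1 : q ≤ 1) (hU : β ≤ N U) (hτ : (U.card : ℝ) * τ0 ≤ β / 2)
    (P : Finset ι → Prop) (hP : ∀ T ⊆ U, P T → N T ≤ δ) (hδ : δ < η * q * (U.card : ℝ) ^ (-η) * (β / 2)) :
    ∃ Z ⊆ U, Z.Nonempty ∧ (∀ t ∈ Z, τ0 ≤ N {t}) ∧ ∀ T ⊆ Z, P T → (T.card : ℝ) ≤ q * Z.card := by
  classical
  have hsum : ∀ s ⊆ U, N s ≤ ∑ t ∈ s, N {t} := by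
    intro s
    induction s using Finset.induction_on with
    | empty => intro _; rw [h0]; simp
    | insert a s ha ih =>
      intro hs
      rw [Finset.sum_insert ha, Finset.insert_eq]
      have h1 : s ⊆ U := (Finset.subset_insert a s).trans hs
      have h2 : ({a} : Finset ι) ⊆ U := Finset.singleton_subset_iff.2 (hs (Finset.mem_insert_self a s))
      refine (hadd _ _ h2 h1 (Finset.disjoint_singleton_left.2 ha)).trans ?_
      linarith [ih h1]
  set Z0 := U.filter fun t => τ0 ≤ N {t} with hZ0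
  have hZ0U : Z0 ⊆ U := Finset.filter_subset _ _
  have hbig : β / 2 ≤ N Z0 := by
    have h1 : N U ≤ N Z0 + N (U \ Z0) := by
      have := hadd Z0 (U \ Z0) hZ0U Finset.sdiff_subset Finset.disjoint_sdiff
      rwa [Finset.union_sdiff_of_subset hZ0U] at this
    have h2 : N (U \ Z0) ≤ (U.card : ℝ) * τ0 ∨ N (U \ Z0) = 0 := by
      rcases (U \ Z0).eq_empty_or_nonempty with he | hne
      · right; rw [he, h0]
      · left
        have h3 : ∀ t ∈ U \ Z0, N {t} ≤ τ0 := by
          intro t ht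
          rw [Finset.mem_sdiff, hZ0, Finset.mem_filter] at ht
          by_contra hlt
          push Not at hlt
          exact ht.2 ⟨ht.1, hlt.le⟩
        obtain ⟨t, ht⟩ := hne
        have hτ0 : 0 ≤ τ0 := (hN _).trans (h3 t ht)
        refine (hsum _ Finset.sdiff_subset).trans ((Finset.sum_le_card_nsmul _ _ _ h3).trans ?_)
        rw [nsmul_eq_mul]
        gcongr
        exact Finset.sdiff_subset
    rcases h2 with h2 | h2
    · linarith
    · linarith
  have hZ0ne : Z0.Nonempty := by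
    rw [Finset.nonempty_iff_ne_empty]
    intro he
    rw [he, h0] at hbig
    linarith
  -- the maximiser
  obtain ⟨Z, hZmem, hZmax⟩ := Finset.exists_max_image (Z0.powerset.filter fun Z => Z.Nonempty)
    (fun Z => N Z * (Z.card : ℝ) ^ (-η)) ⟨Z0, Finset.mem_filter.2 ⟨Finset.mem_powerset_self _, hZ0ne⟩⟩
  rw [Finset.mem_filter, Finset.mem_powerset] at hZmem
  obtain ⟨hZZ0, hZne⟩ := hZmem
  have hZU := hZZ0.trans hZ0U
  refine ⟨Z, hZU, hZne, fun t ht => (Finset.mem_filter.1 (hZZ0 ht)).2, ?_⟩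
  intro T hT hPT
  by_contra hlt
  push Not at hlt
  have hZc : (0:ℝ) < Z.card := by exact_mod_cast hZne.card_pos
  have hUc : (Z.card : ℝ) ≤ U.card := by exact_mod_cast Finset.card_le_card hZU
  have hU0 : (0:ℝ) < U.card := lt_of_lt_of_le hZc hUc
  have hZ0c : (0:ℝ) < Z0.card := by exact_mod_cast hZ0ne.card_pos
  have hZ0U' : (Z0.card : ℝ) ≤ U.card := by exact_mod_cast Finset.card_le_card hZ0U
  -- lower bound of `N Z`
  have hlow : (U.card : ℝ) ^ (-η) * (β / 2) ≤ N Z := by
    have h1 := hZmax Z0 (Finset.mem_filter.2 ⟨Finset.mem_powerset_self _, hZ0ne⟩)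
    have h2 : (U.card : ℝ) ^ (-η) ≤ (Z0.card : ℝ) ^ (-η) := Real.rpow_le_rpow_of_nonpos hZ0c hZ0U' (by linarith)
    have h3 : (Z.card : ℝ) ^ (-η) ≤ 1 := Real.rpow_le_one_of_one_le_of_nonpos (by exact_mod_cast hZne.card_pos) (by linarith)
    have h4 : 0 < (Z0.card : ℝ) ^ (-η) := Real.rpow_pos_of_pos hZ0c _
    calc (U.card : ℝ) ^ (-η) * (β / 2) ≤ (Z0.card : ℝ) ^ (-η) * N Z0 := by
          refine mul_le_mul h2 hbig (by positivity) h4.le
      _ = N Z0 * (Z0.card : ℝ) ^ (-η) := mul_comm _ _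
      _ ≤ N Z * (Z.card : ℝ) ^ (-η) := h1
      _ ≤ N Z * 1 := mul_le_mul_of_nonneg_left h3 (hN Z)
      _ = N Z := mul_one _
  have hNZ : 0 ≤ N Z := hN Z
  have hsplit : N Z ≤ N (Z \ T) + N T := by
    have := hadd (Z \ T) T (Finset.sdiff_subset.trans hZU) (hT.trans hZU) Finset.sdiff_disjoint
    rwa [Finset.sdiff_union_of_subset hT] at this
  have hNT := hP T (hT.trans hZU) hPT
  have key : η * q * N Z ≤ N T := by
    rcases (Z \ T).eq_empty_or_nonempty with he | hne
    · rw [he, h0] at hsplit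
      have : η * q ≤ 1 := by nlinarith
      nlinarith
    · have h1 := hZmax (Z \ T) (Finset.mem_filter.2 ⟨Finset.mem_powerset.2 (Finset.sdiff_subset.trans hZZ0), hne⟩)
      have hc : ((Z \ T).card : ℝ) = Z.card - T.card := by
        rw [Finset.card_sdiff_of_subset hT, Nat.cast_sub (Finset.card_le_card hT)]
      have hc0 : (0:ℝ) < (Z \ T).card := by exact_mod_cast hne.card_pos
      have h2 : ((Z \ T).card : ℝ) ≤ (1 - q) * Z.card := by rw [hc]; linarith
      have hq2 : 0 < 1 - q := by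
        by_contra hcon
        push Not at hcon
        nlinarith
      -- N (Z \ T) ≤ N Z * ((#(Z\T))/#Z)^η ≤ N Z (1-q)^η
      have h3 : N (Z \ T) ≤ N Z * (1 - q) ^ η := by
        have e1 : N (Z \ T) = (N (Z \ T) * ((Z \ T).card : ℝ) ^ (-η)) * ((Z \ T).card : ℝ) ^ η := by
          rw [mul_assoc, ← Real.rpow_add hc0, neg_add_cancel, Real.rpow_zero, mul_one]
        rw [e1]
        calc (N (Z \ T) * ((Z \ T).card : ℝ) ^ (-η)) * ((Z \ T).card : ℝ) ^ η
            ≤ (N Z * (Z.card : ℝ) ^ (-η)) * ((1 - q) * Z.card) ^ η := by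
              refine mul_le_mul h1 (Real.rpow_le_rpow hc0.le h2 hη.le) (Real.rpow_nonneg hc0.le _) ?_
              exact mul_nonneg hNZ (Real.rpow_nonneg hZc.le _)
          _ = N Z * (1 - q) ^ η := by
              rw [Real.mul_rpow hq2.le hZc.le]
              have : (Z.card : ℝ) ^ (-η) * (Z.card : ℝ) ^ η = 1 := by
                rw [← Real.rpow_add hZc, neg_add_cancel, Real.rpow_zero]
              linear_combination (N Z * (1 - q) ^ η) * this
      have h4 : (1 - q) ^ η ≤ 1 - η * q := by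
        have := rpow_one_add_le_one_add_mul_self (s := -q) (by linarith) hη.le hη1
        have e : 1 + -q = 1 - q := by ring
        rw [e] at this
        linarith
      nlinarith
  have : η * q * ((U.card : ℝ) ^ (-η) * (β / 2)) ≤ δ := (mul_le_mul_of_nonneg_left hlow (by positivity)).trans (key.trans hNT)
  have e : η * q * ((U.card : ℝ) ^ (-η) * (β / 2)) = η * q * (U.card : ℝ) ^ (-η) * (β / 2) := by ring
  linarith

end Vale.Agent.P076.H926
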