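import Vale.Agent.P076.H926.N6
import Vale.Agent.P076.H926.Spread

/-! # P076 / H926 : at a broad cube there is a spread set of significant caps of level `j` -/

set_option autoImplicit false

open MeasureTheory Complex Set Vale.Agent.P122.C2 Vale.Agent.P122.AN Vale.Agent.P076.NS Vale.Agent.P076.H879
  Vale.Agent.P122.H610
open scoped ENNReal NNReal FourierTransform

namespace Vale.Agent.P076.H926

theorem cut_union (k n : ℕ) (G S T : Finset Z2) : cut k n G (S ∪ T) = cut k n G S ∪ cut k n G T := by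
  unfold cut
  ext θ
  simp only [Finset.mem_filter, Finset.mem_union]
  tauto

theorem cut_empty (k n : ℕ) (G : Finset Z2) : cut k n G ∅ = ∅ := by
  unfold cut
  simp

theorem cut_disj {k n : ℕ} (G : Finset Z2) {S T : Finset Z2} (h : Disjoint S T) : Disjoint (cut k n G S) (cut k n G T) := by
  unfold cut
  rw [Finset.disjoint_left]
  intro θ h1 h2
  rw [Finset.mem_filter] at h1 h2
  exact (Finset.disjoint_left.1 h) h1.2 h2.2

theorem pow_split {k n j : ℕ} (hj : j ≤ k) : (2:ℤ) ^ (k * n) = 2 ^ ((k - j) * n) * 2 ^ (j * n) := by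
  rw [← pow_add]; congr 1
  obtain ⟨m, rfl⟩ : ∃ m, k = m + j := ⟨k - j, by omega⟩
  rw [Nat.add_sub_cancel]; ring

theorem anc_cap {k n j : ℕ} (hj : j ≤ k) {θ : Z2} (h : Cap n k θ) : Cap n j (anc k n j θ) := by
  intro i
  obtain ⟨h1, h2⟩ := h i
  have p : (0:ℤ) < 2 ^ ((k - j) * n) := by positivity
  rw [pow_split hj, mul_comm] at h2
  exact ⟨Int.ediv_nonneg h1 p.le, Int.ediv_lt_of_lt_mul p h2⟩

theorem kids_zero_eq (n : ℕ) : kids n 0 = desc 1 n 0 0 := by
  ext τ
  rw [mem_kids, mem_desc]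
  simp

theorem mem_kids0 {n : ℕ} {τ : Z2} : τ ∈ kids n 0 ↔ Cap n 1 τ := by
  rw [kids_zero_eq, mem_desc0]

theorem card_kids0 (n : ℕ) : (kids n 0).card = 2 ^ (2 * n) := by
  rw [kids_zero_eq, card_desc0]

theorem cut_kids {k n : ℕ} (hk : 1 ≤ k) {G : Finset Z2} (hG : G ⊆ desc k n 0 0) : cut k n G (kids n 0) = G := by
  unfold cut
  refine Finset.filter_true_of_mem fun θ hθ => ?_
  rw [mem_kids0]
  exact anc_cap hk (mem_desc0.1 (hG hθ))

/-- caps of level `j` in `G` below the caps in `S` -/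
noncomputable def lev (k n j : ℕ) (G S : Finset Z2) : Finset Z2 := (cut k n G S).image (anc k n j)

theorem anc_anc {k n j : ℕ} (h1 : 1 ≤ j) (hj : j ≤ k) (θ : Z2) : an n (j - 1) (anc k n j θ) = anc k n 1 θ := by
  funext i
  rw [an_apply]
  unfold anc
  rw [Int.ediv_ediv_of_nonneg (by positivity), ← pow_add]
  congr 2
  obtain ⟨m, rfl⟩ : ∃ m, k = m + j := ⟨k - j, by omega⟩
  obtain ⟨l, rfl⟩ : ∃ l, j = l + 1 := ⟨j - 1, by omega⟩
  have e1 : m + (l + 1) - (l + 1) = m := by omega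
  have e2 : l + 1 - 1 = l := by omega
  have e3 : m + (l + 1) - 1 = m + l := by omega
  rw [e1, e2, e3]; ring

theorem anc_of_an {k n j : ℕ} (h1 : 1 ≤ j) (hj : j ≤ k) {θ θ' : Z2} (h : anc k n j θ = anc k n j θ') : anc k n 1 θ = anc k n 1 θ' := by
  rw [← anc_anc h1 hj, ← anc_anc h1 hj, h]

theorem mem_desc_anc {k n j : ℕ} {y θ : Z2} : θ ∈ desc k n j y ↔ anc k n j θ = y := by
  rw [mem_desc]
  exact ⟨fun h => funext h, fun h i => by rw [← h]; rfl⟩

theorem desc_sub0 {k n j : ℕ} (hj : j ≤ k) {y θ : Z2} (hy : Cap n j y) (h : θ ∈ desc k n j y) : θ ∈ desc k n 0 0 := by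
  rw [mem_desc0]
  intro i
  obtain ⟨h1, h2⟩ := hy i
  have e := mem_desc.1 h i
  have p : (0:ℤ) < 2 ^ ((k - j) * n) := by positivity
  rw [pow_split hj]
  have a := Int.mul_ediv_add_emod (θ i) (2 ^ ((k - j) * n))
  have b := Int.emod_nonneg (θ i) p.ne'
  have c := Int.emod_lt_of_pos (θ i) p
  rw [e] at a
  constructor
  · nlinarith
  · nlinarith

/-- the part of `G` below the caps of `S` is the disjoint union of the caps of level `j` -/
theorem sF_cut {k n j : ℕ} (h1 : 1 ≤ j) (hj : j ≤ k) (g : Z2 → E3 → ℂ) {G S : Finset Z2} (hG : G ⊆ desc k n 0 0)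
    (hU : Uni k n j G) (z : E3) : sF g (cut k n G S) z = ∑ y ∈ lev k n j G S, pie k n g j y z := by
  classical
  unfold sF lev pie
  rw [← Finset.sum_fiberwise_of_maps_to (s := cut k n G S) (t := (cut k n G S).image (anc k n j))
    (g := anc k n j) (fun θ hθ => Finset.mem_image_of_mem _ hθ)]
  refine Finset.sum_congr rfl fun y hy => ?_
  refine Finset.sum_congr ?_ fun _ _ => rfl
  obtain ⟨θ0, hθ0, rfl⟩ := Finset.mem_image.1 hy
  unfold cut at hθ0
  rw [Finset.mem_filter] at hθ0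
  have hcap := anc_cap hj (mem_desc0.1 (hG hθ0.1))
  ext θ
  rw [Finset.mem_filter, mem_desc_anc]
  constructor
  · rintro ⟨-, h⟩; exact h
  · intro h
    refine ⟨?_, h⟩
    unfold cut
    rw [Finset.mem_filter]
    refine ⟨hU θ0 hθ0.1 θ (desc_sub0 hj hcap (mem_desc_anc.2 h)) h, ?_⟩
    rw [anc_of_an h1 hj h]
    exact hθ0.2

theorem card_lev {k n j : ℕ} (hj : j ≤ k) {G S : Finset Z2} (hG : G ⊆ desc k n 0 0) :
    ((lev k n j G S).card : ℝ) ≤ 2 ^ (2 * j * n) := by
  have h : lev k n j G S ⊆ desc j n 0 0 := by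
    intro y hy
    obtain ⟨θ0, hθ0, rfl⟩ := Finset.mem_image.1 hy
    unfold cut at hθ0
    rw [Finset.mem_filter] at hθ0
    exact mem_desc0.2 (anc_cap hj (mem_desc0.1 (hG hθ0.1)))
  have := Finset.card_le_card h
  rw [card_desc0] at this
  exact_mod_cast this

theorem meas_pie' {k n j : ℕ} {g : Z2 → E3 → ℂ} (hg : ∀ θ, Integrable (g θ)) (y : Z2) : Measurable (pie k n g j y) :=
  (continuous_pie hg j y).measurable

/-- a wide strip is a union of strips of width `2 ^ (-n)` -/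
theorem strip_wide {M n k : ℕ} (hM : 4 ≤ M) {g : Z2 → E3 → ℂ} (hg : ∀ θ, Integrable (g θ)) {G : Finset Z2} {B : Fin 3 → ℤ}
    {c β : ℝ} (hβ : 0 < β) (hB : BroadAt c M k n g G β B) (m : ℕ) {T : Finset Z2} (hT : T ⊆ kids n 0) {θ r : ℝ}
    (h : ∀ τ ∈ T, |fn θ (slp n 1 τ) - r| ≤ (2 * m) / 2 ^ n) :
    N6 M n B (sF g (cut k n G T)) ≤ (2 * m + 1) * ((2:ℝ) ^ (-(c * n)) * β) := by
  classical
  set N : Finset Z2 → ℝ := fun Z => N6 M n B (sF g (cut k n G Z)) with hN
  have hadd : ∀ s t, Disjoint s t → N (s ∪ t) ≤ N s + N t := by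
    intro s t hst
    simp only [hN]
    rw [cut_union]
    exact N6_sF_union hM B hg (cut_disj G hst)
  have h0 : N ∅ = 0 := by
    simp only [hN]
    rw [cut_empty]
    exact N6_sF_empty M n B g
  -- classes
  set f : Z2 → ℤ := fun τ => ⌊(fn θ (slp n 1 τ) - r) * 2 ^ n / 2⌋ with hf
  have p : (0:ℝ) < 2 ^ n := by positivity
  have hfm : ∀ τ ∈ T, f τ ∈ Finset.Icc (-(m:ℤ)) m := by
    intro τ hτ
    have h1 := abs_le.1 (h τ hτ)
    have e1 : -(2 * (m:ℝ)) ≤ (fn θ (slp n 1 τ) - r) * 2 ^ n := by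
      have := mul_le_mul_of_nonneg_right h1.1 p.le
      rwa [neg_mul, div_mul_cancel₀ _ p.ne'] at this
    have e2 : (fn θ (slp n 1 τ) - r) * 2 ^ n ≤ 2 * m := by
      have := mul_le_mul_of_nonneg_right h1.2 p.le
      rwa [div_mul_cancel₀ _ p.ne'] at this
    rw [Finset.mem_Icc]
    constructor
    · rw [Int.le_floor]; push_cast; linarith
    · have : ((f τ : ℤ) : ℝ) ≤ m := (Int.floor_le _).trans (by linarith)
      exact_mod_cast this
  have hsum : ∀ I : Finset ℤ, N (T.filter fun τ => f τ ∈ I) ≤ ∑ i ∈ I, N (T.filter fun τ => f τ = i) := by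
    intro I
    induction I using Finset.induction_on with
    | empty => simp [h0]
    | insert a s ha ih =>
      rw [Finset.sum_insert ha]
      have e : (T.filter fun τ => f τ ∈ insert a s) = (T.filter fun τ => f τ = a) ∪ (T.filter fun τ => f τ ∈ s) := by
        ext τ
        simp only [Finset.mem_filter, Finset.mem_insert, Finset.mem_union]
        tauto
      rw [e]
      refine (hadd _ _ ?_).trans (by linarith)
      rw [Finset.disjoint_left]
      intro τ h1 h2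
      rw [Finset.mem_filter] at h1 h2
      rw [h1.2] at h2
      exact ha h2.2
  have hcls : ∀ i, N (T.filter fun τ => f τ = i) ≤ (2:ℝ) ^ (-(c * n)) * β := by
    intro i
    have hs : Strip 1 n (T.filter fun τ => f τ = i) := by
      refine ⟨θ, r + (2 * i + 1) / 2 ^ n, fun τ hτ => ?_⟩
      rw [Finset.mem_filter] at hτ
      have h1 : (i:ℝ) ≤ (fn θ (slp n 1 τ) - r) * 2 ^ n / 2 := by rw [← hτ.2]; exact Int.floor_le _
      have h2 : (fn θ (slp n 1 τ) - r) * 2 ^ n / 2 < i + 1 := by rw [← hτ.2]; exact Int.lt_floor_add_one _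
      have e : fn θ (slp n 1 τ) - (r + (2 * i + 1) / 2 ^ n) = ((fn θ (slp n 1 τ) - r) * 2 ^ n - (2 * i + 1)) / 2 ^ n := by
        field_simp
        ring
      rw [e, abs_div, abs_of_pos p]
      refine div_le_div_of_nonneg_right ?_ p.le
      rw [abs_le]
      constructor <;> linarith
    have h1 := hB _ ((Finset.filter_subset _ _).trans hT) hs
    have e2 : (2:ℝ) ^ (-(6 * c * n)) * β ^ 6 = ((2:ℝ) ^ (-(c * n)) * β) ^ 6 := by
      rw [mul_pow, ← Real.rpow_natCast ((2:ℝ) ^ (-(c * n))), ← Real.rpow_mul (by norm_num)]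
      congr 2
      push_cast; ring
    rw [e2] at h1
    exact (N6_lt hM B hg _ (by positivity) h1).le
  have e3 : (T.filter fun τ => f τ ∈ Finset.Icc (-(m:ℤ)) m) = T := Finset.filter_true_of_mem hfm
  have h4 := hsum (Finset.Icc (-(m:ℤ)) m)
  rw [e3] at h4
  refine h4.trans ((Finset.sum_le_card_nsmul _ _ _ fun i _ => hcls i).trans (le_of_eq ?_))
  rw [nsmul_eq_mul, Int.card_Icc]
  congr 1
  have : ((m:ℤ) + 1 - -(m:ℤ)).toNat = 2 * m + 1 := by omega
  rw [this]
  push_cast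
  ring

end Vale.Agent.P076.H926
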