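import Vale.Agent.P076.H926.Ext

/-! # P076 / H926 : at a broad cube there is a spread set of significant caps of level `j` (end) -/

set_option autoImplicit false

open MeasureTheory Complex Set Vale.Agent.P122.C2 Vale.Agent.P122.AN Vale.Agent.P076.NS Vale.Agent.P076.H879
  Vale.Agent.P122.H610
open scoped ENNReal NNReal FourierTransform

namespace Vale.Agent.P076.H926

/-- the number `n0` -/
theorem exists_n0 (c X : ℝ) (hc : 0 < c) : ∃ n0 : ℕ, 1 ≤ n0 ∧ ∀ n : ℕ, n0 ≤ n → X < (2:ℝ) ^ (c * n) := by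
  obtain ⟨m, hm⟩ := exists_nat_gt (Real.logb 2 (max X 1) / c)
  refine ⟨m + 1, by omega, fun n hn => ?_⟩
  have h1 : Real.logb 2 (max X 1) < c * n := by
    rw [div_lt_iff₀ hc] at hm
    have : (m:ℝ) ≤ n := by exact_mod_cast (by omega : m ≤ n)
    nlinarith
  have h2 : (0:ℝ) < max X 1 := lt_of_lt_of_le one_pos (le_max_right _ _)
  calc X ≤ max X 1 := le_max_left _ _
    _ = (2:ℝ) ^ Real.logb 2 (max X 1) := (Real.rpow_logb (by norm_num) (by norm_num) h2).symm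
    _ < (2:ℝ) ^ (c * n) := Real.rpow_lt_rpow_of_exponent_lt (by norm_num) h1

theorem ext_spread (c C : ℝ) (hc : 0 < c) : ∃ n0 : ℕ, 1 ≤ n0 ∧ ∀ n : ℕ, n0 ≤ n → ∀ (M k : ℕ), 4 ≤ M → 1 ≤ k →
    ∀ (g : Z2 → E3 → ℂ), (∀ θ, Integrable (g θ)) → ∀ (G : Finset Z2) (B : Fin 3 → ℤ) (β : ℝ), G ⊆ desc k n 0 0 → 0 < β →
      ENNReal.ofReal (β ^ 6) ≤ b6 M n B (sF g G) → BroadAt c M k n g G β B →
      ∃ Z ⊆ kids n 0, Z.Nonempty ∧ (∀ τ ∈ Z, (2:ℝ) ^ (-(3 * n : ℝ)) * β ≤ N6 M n B (sF g (cut k n G {τ}))) ∧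
        ∀ θ r : ℝ, ((Z.filter fun τ => |fn θ (slp n 1 τ) - r| ≤ 8 * C / 2 ^ n).card : ℝ) ≤ 2 ^ (-(c / 4 * n)) * Z.card := by
  classical
  set m : ℕ := ⌈4 * C⌉₊ with hm
  have hm1 : 4 * C ≤ m := Nat.le_ceil _
  set η : ℝ := min (c / 4) 1 with hη
  have hη0 : 0 < η := lt_min (by linarith) one_pos
  have hη1 : η ≤ 1 := min_le_right _ _
  have hηc : η ≤ c / 4 := min_le_left _ _
  obtain ⟨n0, hn0, H⟩ := exists_n0 (c / 4) (2 * (2 * m + 1) / η) (by linarith)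
  refine ⟨n0, hn0, ?_⟩
  intro n hn M k hM hk g hg G B β hG hβ hamp hB
  have hX := H n hn
  have hn1 : 1 ≤ n := hn0.trans hn
  have hq0 : (0:ℝ) < 2 ^ (-(c / 4 * n)) := Real.rpow_pos_of_pos (by norm_num) _
  have hn' : (1:ℝ) ≤ n := by exact_mod_cast hn1
  have hq1 : (2:ℝ) ^ (-(c / 4 * n)) ≤ 1 := Real.rpow_le_one_of_one_le_of_nonpos (by norm_num) (by nlinarith)
  obtain ⟨Z, hZU, hZne, hZ1, hZ2⟩ := exists_spread (kids n 0) (fun Z => N6 M n B (sF g (cut k n G Z)))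
    (fun s => N6_nonneg _ _ _ _)
    (by
      intro s t _ _ hst
      show N6 M n B (sF g (cut k n G (s ∪ t))) ≤ _
      rw [cut_union]
      exact N6_sF_union hM B hg (cut_disj G hst))
    (by
      show N6 M n B (sF g (cut k n G ∅)) = 0
      rw [cut_empty]
      exact N6_sF_empty M n B g)
    (β := β) (δ := (2 * m + 1) * ((2:ℝ) ^ (-(c * n)) * β)) (q := (2:ℝ) ^ (-(c / 4 * n))) (η := η)
    (τ0 := (2:ℝ) ^ (-(3 * n : ℝ)) * β) hβ hη0 hη1 hq0 hq1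
    (by
      show β ≤ N6 M n B (sF g (cut k n G (kids n 0)))
      rw [cut_kids hk hG]
      exact le_N6 hM B hg G hamp)
    (by
      rw [card_kids0]
      have e : (((2 ^ (2 * n) : ℕ)) : ℝ) * ((2:ℝ) ^ (-(3 * n : ℝ)) * β) = (2:ℝ) ^ (-(n:ℝ)) * β := by
        push_cast
        rw [← mul_assoc, ← Real.rpow_natCast, ← Real.rpow_add (by norm_num)]
        congr 2
        push_cast; ring
      rw [e]
      have : (2:ℝ) ^ (-(n:ℝ)) ≤ 1 / 2 := by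
        have h1 : (2:ℝ) ^ (-(n:ℝ)) ≤ (2:ℝ) ^ (-(1:ℝ)) := Real.rpow_le_rpow_of_exponent_le (by norm_num) (by linarith)
        rw [Real.rpow_neg (by norm_num) 1, Real.rpow_one] at h1
        linarith
      nlinarith)
    (fun T => ∃ θ r : ℝ, ∀ τ ∈ T, |fn θ (slp n 1 τ) - r| ≤ (2 * m) / 2 ^ n)
    (by
      rintro T hT ⟨θ, r, h⟩
      exact strip_wide hM hg hβ hB m hT h)
    (by
      rw [card_kids0]
      have e : (((2 ^ (2 * n) : ℕ)) : ℝ) ^ (-η) = (2:ℝ) ^ (-(2 * n * η)) := by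
        push_cast
        rw [← Real.rpow_natCast, ← Real.rpow_mul (by norm_num)]
        congr 1
        push_cast; ring
      rw [e]
      have h1 : (2:ℝ) ^ (-(c / 2 * n)) ≤ (2:ℝ) ^ (-(2 * n * η)) := by
        refine Real.rpow_le_rpow_of_exponent_le (by norm_num) ?_
        have : 2 * (n:ℝ) * η ≤ 2 * n * (c / 4) := by gcongr
        nlinarith
      have h2 : (2:ℝ) ^ (-(c * n)) * 2 ^ (c / 4 * n) = 2 ^ (-(c / 4 * n)) * 2 ^ (-(c / 2 * n)) := by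
        rw [← Real.rpow_add (by norm_num), ← Real.rpow_add (by norm_num)]
        congr 1; ring
      have h3 : 2 * (2 * (m:ℝ) + 1) < η * 2 ^ (c / 4 * n) := by
        rw [div_lt_iff₀ hη0] at hX
        linarith
      have p1 : (0:ℝ) < 2 ^ (-(c * n)) := Real.rpow_pos_of_pos (by norm_num) _
      calc (2 * (m:ℝ) + 1) * ((2:ℝ) ^ (-(c * n)) * β) = (2 * (2 * (m:ℝ) + 1)) * (2:ℝ) ^ (-(c * n)) * (β / 2) := by ring
        _ < (η * 2 ^ (c / 4 * n)) * (2:ℝ) ^ (-(c * n)) * (β / 2) := by gcongr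
        _ = η * ((2:ℝ) ^ (-(c * n)) * 2 ^ (c / 4 * n)) * (β / 2) := by ring
        _ = η * (2 ^ (-(c / 4 * n)) * 2 ^ (-(c / 2 * n))) * (β / 2) := by rw [h2]
        _ ≤ η * (2 ^ (-(c / 4 * n)) * 2 ^ (-(2 * n * η))) * (β / 2) := by gcongr
        _ = _ := by ring)
  refine ⟨Z, hZU, hZne, hZ1, fun θ r => ?_⟩
  refine hZ2 _ (Finset.filter_subset _ _) ⟨θ, r, fun τ hτ => ?_⟩
  rw [Finset.mem_filter] at hτ
  refine hτ.2.trans (div_le_div_of_nonneg_right ?_ (by positivity))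
  linarith

/-- **extraction at one cube** -/
theorem ext_cube (k M1 M j : ℕ) (hM1 : 4 ≤ M1) (hj : 2 ≤ j) (hjk : j ≤ k) (hM : 3 * ex k M1 j + 4 ≤ M) (C0 : ℝ) (hC0 : 1 ≤ C0)
    (c C : ℝ) (hc : 0 < c) : ∃ (n0 : ℕ) (C6 : ℝ), 1 ≤ n0 ∧ 0 < C6 ∧ ∀ n : ℕ, n0 ≤ n → ∀ g : Z2 → E3 → ℂ, Par C0 k n g →
    ∀ (G : Finset Z2) (B : Fin 3 → ℤ) (β : ℝ), InQ k n B → G ⊆ desc k n 0 0 → Uni k n j G → 0 < β →
      ENNReal.ofReal (β ^ 6) ≤ b6 M n B (sF g G) → BroadAt c M k n g G β B →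
      ∃ H : Finset Z2, H.Nonempty ∧ (∀ y ∈ H, Cap n j y) ∧
        (∀ y ∈ H, β / C6 ≤ (2:ℝ) ^ ((2 * j + 3 : ℝ) * n) * aR k M1 n g j (pth (slp n) n j (xB n B) y)) ∧
        ∀ θ r : ℝ, ((H.filter fun y => |fn θ (slp n 1 (an n (j - 1) y)) - r| ≤ 8 * C / 2 ^ n).card : ℝ) ≤
          2 ^ (-(c / 4 * n)) * H.card := by
  classical
  obtain ⟨n0, hn0, H0⟩ := ext_spread c C hc
  obtain ⟨C1, hC1, H1⟩ := b6_amp k M1 hM1 M j hj hjk hM C0 hC0
  refine ⟨n0, C1 + 1, hn0, by linarith, ?_⟩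
  intro n hn g hg G B β hB hG hU hβ hamp hbr
  have hM4 : 4 ≤ M := by omega
  have h1j : 1 ≤ j := by omega
  obtain ⟨Z, hZU, hZne, hZ1, hZ2⟩ := H0 n hn M k hM4 (by omega) g hg.int G B β hG hβ hamp hbr
  -- choice of one cap of level `j`
  have hch : ∀ τ ∈ Z, ∃ y ∈ lev k n j G {τ}, (2:ℝ) ^ (-(3 * n : ℝ)) * β ≤ 2 ^ (2 * j * n) * N6 M n B (pie k n g j y) := by
    intro τ hτ
    by_contra hcon
    push Not at hcon
    have h1 := hZ1 τ hτ
    have e : sF g (cut k n G {τ}) = fun z => ∑ y ∈ lev k n j G {τ}, pie k n g j y z := by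
      funext z
      exact sF_cut h1j hjk g hG hU z
    rw [e] at h1
    have h2 := N6_sum (n := n) hM4 B (lev k n j G {τ}) (f := fun y => pie k n g j y) (fun y => meas_pie' hg.int y) _
      (fun y z => bdd_pie k n g j y z)
    have hpos : 0 < (2:ℝ) ^ (-(3 * n : ℝ)) * β := by positivity
    have hne : (lev k n j G {τ}).Nonempty := by
      rw [Finset.nonempty_iff_ne_empty]
      intro he
      rw [he] at h2
      simp only [Finset.sum_empty] at h2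
      rw [he] at h1
      simp only [Finset.sum_empty] at h1
      linarith
    have hcard := card_lev (S := {τ}) hjk hG (k := k) (n := n)
    have hc0 : (0:ℝ) < (lev k n j G {τ}).card := by exact_mod_cast hne.card_pos
    have h3 : ∑ y ∈ lev k n j G {τ}, (2:ℝ) ^ (2 * j * n) * N6 M n B (pie k n g j y) <
        ∑ _y ∈ lev k n j G {τ}, (2:ℝ) ^ (-(3 * n : ℝ)) * β := Finset.sum_lt_sum_of_nonempty hne hcon
    rw [← Finset.mul_sum, Finset.sum_const, nsmul_eq_mul] at h3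
    have h4 : (2:ℝ) ^ (2 * j * n) * ((2:ℝ) ^ (-(3 * n : ℝ)) * β) ≤ (2:ℝ) ^ (2 * j * n) *
        ∑ y ∈ lev k n j G {τ}, N6 M n B (pie k n g j y) := mul_le_mul_of_nonneg_left (h1.trans h2) (by positivity)
    have h5 : ((lev k n j G {τ}).card : ℝ) * ((2:ℝ) ^ (-(3 * n : ℝ)) * β) ≤ (2:ℝ) ^ (2 * j * n) * ((2:ℝ) ^ (-(3 * n : ℝ)) * β) :=
      mul_le_mul_of_nonneg_right hcard hpos.le
    linarith
  choose! Yc hY1 hY2 using hch
  have hanc : ∀ τ ∈ Z, Cap n j (Yc τ) ∧ an n (j - 1) (Yc τ) = τ := by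
    intro τ hτ
    obtain ⟨θ0, hθ0, he⟩ := Finset.mem_image.1 (hY1 τ hτ)
    unfold cut at hθ0
    rw [Finset.mem_filter, Finset.mem_singleton] at hθ0
    rw [← he]
    exact ⟨anc_cap hjk (mem_desc0.1 (hG hθ0.1)), by rw [anc_anc h1j hjk]; exact hθ0.2⟩
  have hinj : Set.InjOn Yc (Z : Set Z2) := by
    intro τ hτ τ' hτ' he
    rw [← (hanc τ hτ).2, ← (hanc τ' hτ').2, he]
  refine ⟨Z.image Yc, hZne.image _, ?_, ?_, ?_⟩
  · intro y hy
    obtain ⟨τ, hτ, rfl⟩ := Finset.mem_image.1 hy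
    exact (hanc τ hτ).1
  · intro y hy
    obtain ⟨τ, hτ, rfl⟩ := Finset.mem_image.1 hy
    have h1 := hY2 τ hτ
    have h2 := H1 n g hg B hB (Yc τ) (hanc τ hτ).1
    set a := aR k M1 n g j (pth (slp n) n j (xB n B) (Yc τ)) with ha
    have ha0 : 0 ≤ a := aR_nonneg _ _
    rw [← N6_pow hM4 B (meas_pie' hg.int (Yc τ)) (bdd_pie k n g j (Yc τ))] at h2
    have h3 := (ENNReal.ofReal_le_ofReal_iff (by positivity)).1 h2
    have h4 : N6 M n B (pie k n g j (Yc τ)) ≤ (C1 + 1) * a := by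
      have hN0 := N6_nonneg M n B (pie k n g j (Yc τ))
      by_contra hcon
      push Not at hcon
      have h5 : ((C1 + 1) * a) ^ 6 < N6 M n B (pie k n g j (Yc τ)) ^ 6 := pow_lt_pow_left₀ hcon (by positivity) (by norm_num)
      have h6 : C1 * a ^ 6 ≤ ((C1 + 1) * a) ^ 6 := by
        rw [mul_pow]
        refine mul_le_mul_of_nonneg_right ?_ (by positivity)
        have : C1 + 1 ≤ (C1 + 1) ^ 6 := le_self_pow₀ (by linarith) (by norm_num)
        linarith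
      linarith
    rw [div_le_iff₀ (by linarith)]
    have e1 : (2:ℝ) ^ ((2 * j + 3 : ℝ) * n) = 2 ^ (2 * j * n) * 2 ^ (3 * n : ℝ) := by
      rw [← Real.rpow_natCast, ← Real.rpow_add (by norm_num)]
      congr 1
      push_cast; ring
    have e2 : (2:ℝ) ^ (3 * n : ℝ) * 2 ^ (-(3 * n : ℝ)) = 1 := by
      rw [← Real.rpow_add (by norm_num)]; simp
    have p3 : (0:ℝ) < 2 ^ (3 * n : ℝ) := Real.rpow_pos_of_pos (by norm_num) _
    calc β = (2:ℝ) ^ (3 * n : ℝ) * (2 ^ (-(3 * n : ℝ)) * β) := by rw [← mul_assoc, e2, one_mul]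
      _ ≤ (2:ℝ) ^ (3 * n : ℝ) * (2 ^ (2 * j * n) * ((C1 + 1) * a)) := by
          refine mul_le_mul_of_nonneg_left (h1.trans ?_) p3.le
          exact mul_le_mul_of_nonneg_left h4 (by positivity)
      _ = _ := by rw [e1]; ring
  · intro θ r
    have e : (Z.image Yc).filter (fun y => |fn θ (slp n 1 (an n (j - 1) y)) - r| ≤ 8 * C / 2 ^ n) =
        (Z.filter fun τ => |fn θ (slp n 1 τ) - r| ≤ 8 * C / 2 ^ n).image Yc := by
      ext y
      simp only [Finset.mem_filter, Finset.mem_image]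
      constructor
      · rintro ⟨⟨τ, hτ, rfl⟩, h⟩
        rw [(hanc τ hτ).2] at h
        exact ⟨τ, ⟨hτ, h⟩, rfl⟩
      · rintro ⟨τ, ⟨hτ, h⟩, rfl⟩
        refine ⟨⟨τ, hτ, rfl⟩, ?_⟩
        rw [(hanc τ hτ).2]
        exact h
    rw [e, Finset.card_image_of_injOn (hinj.mono (by exact_mod_cast Finset.filter_subset _ _)), Finset.card_image_of_injOn hinj]
    exact hZ2 θ r

end Vale.Agent.P076.H926
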