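import Vale.Agent.P076.H926.T3
import Vale.Agent.P076.H709.Glob
import Vale.Agent.P076.H709.Cnt
import Vale.Agent.P076.H7.Enr

/-! # P076 / H926 : `NS.KP`, the two outputs -/

set_option autoImplicit false

namespace Vale.Agent.P076.H926

open Vale.Agent.P076.NS

/-- **(T1)** the base case of the induction -/
theorem stKP1 : Vale.Agent.P076.H780.StKP1 := kp1_of Vale.Agent.P076.H709.cnt Vale.Agent.P076.H709.glob

/-- **(T2)** the broad case of the induction -/
theorem stKP2 : StTRIe → StBG → Vale.Agent.P076.H780.StKP2 :=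
  kp2_of Vale.Agent.P076.H709.cnt Vale.Agent.P076.H709.glob Vale.Agent.P076.H7.enr

end Vale.Agent.P076.H926
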