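import Vale.Agent.P076.H926.Defs

/-! # P076 / H926 : the `L⁶` norm on a cube -/

set_option autoImplicit false

open MeasureTheory Complex Set Vale.Agent.P122.C2 Vale.Agent.P122.AN Vale.Agent.P076.NS Vale.Agent.P076.H879
open scoped ENNReal NNReal FourierTransform

namespace Vale.Agent.P076.H926

/-- the measure of the cube `B` -/
noncomputable def muB (M n : ℕ) (B : Fin 3 → ℤ) : Measure E3 :=
  ENNReal.ofReal (((2:ℝ) ^ (6 * n))⁻¹) • (volume : Measure E3).withDensity (wB M n B)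

theorem measurable_wB (M n : ℕ) (B : Fin 3 → ℤ) : Measurable (wB M n B) :=
  Vale.Agent.P122.AN275.measurable_wg_sub M 0 _ _ _ 0 (cB n B)

theorem b6_eq (M n : ℕ) (B : Fin 3 → ℤ) {f : E3 → ℂ} (hf : Measurable f) : b6 M n B f = ∫⁻ z, ‖f z‖ₑ ^ 6 ∂(muB M n B) := by
  unfold b6 muB
  rw [lintegral_smul_measure, lintegral_withDensity_eq_lintegral_mul _ (measurable_wB M n B) (by fun_prop), smul_eq_mul]
  congr 1
  refine lintegral_congr fun z => ?_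
  rw [Pi.mul_apply, mul_comm]

/-- the `L⁶` norm on the cube -/
noncomputable def N6 (M n : ℕ) (B : Fin 3 → ℤ) (f : E3 → ℂ) : ℝ := (eLpNorm f 6 (muB M n B)).toReal

theorem N6_nonneg (M n : ℕ) (B : Fin 3 → ℤ) (f : E3 → ℂ) : 0 ≤ N6 M n B f := ENNReal.toReal_nonneg

theorem eLp_pow (M n : ℕ) (B : Fin 3 → ℤ) {f : E3 → ℂ} (hf : Measurable f) : eLpNorm f 6 (muB M n B) ^ 6 = b6 M n B f := by
  rw [b6_eq M n B hf, eLpNorm_eq_lintegral_rpow_enorm_toReal (by norm_num) (by norm_num)]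
  have e6 : (6 : ℝ≥0∞).toReal = 6 := by norm_num
  rw [e6, ← ENNReal.rpow_natCast, ← ENNReal.rpow_mul]
  have e1 : (1 / 6 : ℝ) * ((6 : ℕ) : ℝ) = 1 := by norm_num
  rw [e1, ENNReal.rpow_one]
  refine lintegral_congr fun z => ?_
  rw [← ENNReal.rpow_natCast]
  norm_num

/-- the cube sums are bounded, hence finite -/
theorem b6_lt_top {M n : ℕ} (hM : 4 ≤ M) (B : Fin 3 → ℤ) {f : E3 → ℂ} {A : ℝ} (hA : ∀ z, ‖f z‖ ≤ A) : b6 M n B f < ⊤ := by
  obtain ⟨C, hC, H⟩ := b6_le_of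
  have hA0 : 0 ≤ A := (norm_nonneg _).trans (hA 0)
  refine lt_of_le_of_lt (H M n B f (ENNReal.ofReal (A ^ 6)) fun z => ?_) (ENNReal.mul_lt_top ENNReal.ofReal_lt_top ENNReal.ofReal_lt_top)
  refine mul_le_mul' ?_ ?_
  · rw [← ofReal_norm, ← ENNReal.ofReal_pow (norm_nonneg _)]
    exact ENNReal.ofReal_le_ofReal (pow_le_pow_left₀ (norm_nonneg _) (hA z) 6)
  · exact wg_anti (by positivity) (by positivity) (by positivity) hM _

theorem eLp_lt {M n : ℕ} (hM : 4 ≤ M) (B : Fin 3 → ℤ) {f : E3 → ℂ} (hf : Measurable f) {A : ℝ} (hA : ∀ z, ‖f z‖ ≤ A) :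
    eLpNorm f 6 (muB M n B) < ⊤ := by
  have h := b6_lt_top (n := n) hM B hA
  rw [← eLp_pow M n B hf] at h
  by_contra hcon
  rw [not_lt, top_le_iff] at hcon
  rw [hcon] at h
  simp at h

theorem N6_pow {M n : ℕ} (hM : 4 ≤ M) (B : Fin 3 → ℤ) {f : E3 → ℂ} (hf : Measurable f) {A : ℝ} (hA : ∀ z, ‖f z‖ ≤ A) :
    ENNReal.ofReal (N6 M n B f ^ 6) = b6 M n B f := by
  unfold N6
  rw [ENNReal.ofReal_pow ENNReal.toReal_nonneg, ENNReal.ofReal_toReal (eLp_lt hM B hf hA).ne, eLp_pow M n B hf]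

theorem N6_add {M n : ℕ} (hM : 4 ≤ M) (B : Fin 3 → ℤ) {f g : E3 → ℂ} (hf : Measurable f) (hg : Measurable g) {A A' : ℝ}
    (hA : ∀ z, ‖f z‖ ≤ A) (hA' : ∀ z, ‖g z‖ ≤ A') : N6 M n B (fun z => f z + g z) ≤ N6 M n B f + N6 M n B g := by
  unfold N6
  have h1 := eLp_lt hM B hf hA (n := n)
  have h2 := eLp_lt hM B hg hA' (n := n)
  rw [← ENNReal.toReal_add h1.ne h2.ne]
  refine ENNReal.toReal_mono (ENNReal.add_lt_top.2 ⟨h1, h2⟩).ne ?_
  exact eLpNorm_add_le hf.aestronglyMeasurable hg.aestronglyMeasurable (by norm_num)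

theorem N6_sum {M n : ℕ} (hM : 4 ≤ M) (B : Fin 3 → ℤ) {ι : Type*} (I : Finset ι) {f : ι → E3 → ℂ} (hf : ∀ i, Measurable (f i))
    (A : ι → ℝ) (hA : ∀ i z, ‖f i z‖ ≤ A i) : N6 M n B (fun z => ∑ i ∈ I, f i z) ≤ ∑ i ∈ I, N6 M n B (f i) := by
  classical
  induction I using Finset.induction_on with
  | empty =>
    simp only [Finset.sum_empty]
    unfold N6
    have : (fun _ : E3 => (0:ℂ)) = 0 := rfl
    rw [this, eLpNorm_zero]
    simp
  | insert a s ha ih =>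
    simp only [Finset.sum_insert ha]
    refine (N6_add hM B (hf a) (Finset.measurable_fun_sum s fun i _ => hf i) (hA a) (A' := ∑ i ∈ s, A i) fun z => ?_).trans ?_
    · exact (norm_sum_le _ _).trans (Finset.sum_le_sum fun i _ => hA i z)
    · linarith

/-! ### sums of finest pieces -/

theorem meas_sF {g : Z2 → E3 → ℂ} (hg : ∀ θ, Integrable (g θ)) (G : Finset Z2) : Measurable (sF g G) := by
  unfold sF
  exact Finset.measurable_fun_sum _ fun θ _ => (continuous_inv (hg θ)).measurable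

theorem bdd_sF (g : Z2 → E3 → ℂ) (G : Finset Z2) (z : E3) : ‖sF g G z‖ ≤ ∑ θ ∈ G, ∫ v, ‖g θ v‖ := by
  unfold sF
  exact (norm_sum_le _ _).trans (Finset.sum_le_sum fun θ _ => norm_inv_le _ _)

theorem bdd_pie (k n : ℕ) (g : Z2 → E3 → ℂ) (i : ℕ) (τ : Z2) (z : E3) : ‖pie k n g i τ z‖ ≤ ∑ θ ∈ desc k n i τ, ∫ v, ‖g θ v‖ :=
  bdd_sF g (desc k n i τ) z

theorem N6_sF_empty (M n : ℕ) (B : Fin 3 → ℤ) (g : Z2 → E3 → ℂ) : N6 M n B (sF g ∅) = 0 := by
  have : sF g ∅ = 0 := by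
    funext z
    unfold sF
    simp
  rw [this]
  unfold N6
  rw [eLpNorm_zero]
  simp

theorem N6_sF_union {M n : ℕ} (hM : 4 ≤ M) (B : Fin 3 → ℤ) {g : Z2 → E3 → ℂ} (hg : ∀ θ, Integrable (g θ)) {G G' : Finset Z2}
    (h : Disjoint G G') : N6 M n B (sF g (G ∪ G')) ≤ N6 M n B (sF g G) + N6 M n B (sF g G') := by
  have e : sF g (G ∪ G') = fun z => sF g G z + sF g G' z := by
    funext z
    unfold sF
    exact Finset.sum_union h
  rw [e]
  exact N6_add hM B (meas_sF hg G) (meas_sF hg G') (bdd_sF g G) (bdd_sF g G')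

/-- comparison with `b6` -/
theorem le_N6 {M n : ℕ} (hM : 4 ≤ M) (B : Fin 3 → ℤ) {g : Z2 → E3 → ℂ} (hg : ∀ θ, Integrable (g θ)) (G : Finset Z2) {β : ℝ}
    (h : ENNReal.ofReal (β ^ 6) ≤ b6 M n B (sF g G)) : β ≤ N6 M n B (sF g G) := by
  rw [← N6_pow hM B (meas_sF hg G) (bdd_sF g G)] at h
  have h1 := (ENNReal.ofReal_le_ofReal_iff (by have := N6_nonneg M n B (sF g G); positivity)).1 h
  by_contra hcon
  push Not at hcon
  exact absurd h1 (not_le.2 (pow_lt_pow_left₀ hcon (N6_nonneg _ _ _ _) (by norm_num)))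

theorem N6_lt {M n : ℕ} (hM : 4 ≤ M) (B : Fin 3 → ℤ) {g : Z2 → E3 → ℂ} (hg : ∀ θ, Integrable (g θ)) (G : Finset Z2) {β : ℝ}
    (hβ : 0 ≤ β) (h : b6 M n B (sF g G) < ENNReal.ofReal (β ^ 6)) : N6 M n B (sF g G) < β := by
  rw [← N6_pow hM B (meas_sF hg G) (bdd_sF g G)] at h
  have h1 := (ENNReal.ofReal_lt_ofReal_iff_of_nonneg (by have := N6_nonneg M n B (sF g G); positivity)).1 h
  by_contra hcon
  push Not at hcon
  exact absurd h1 (not_lt.2 (pow_le_pow_left₀ hβ hcon 6))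

end Vale.Agent.P076.H926
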