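import Vale.Agent.P076.H926.Loc

/-! # P076 / H926 : the tube of level `j` through a cube, lower bound of its amplitude -/

set_option autoImplicit false

open MeasureTheory Complex Set Vale.Agent.P122.C2 Vale.Agent.P122.AN Vale.Agent.P076.NS Vale.Agent.P076.H879
  Vale.Agent.P122.H610
open scoped ENNReal NNReal FourierTransform

namespace Vale.Agent.P076.H926

theorem mem_kids_par (n : ℕ) (y : Z2) : y ∈ kids n (par n y) := mem_kids.2 fun _ => rfl

theorem cap_par {n i : ℕ} {y : Z2} (h : Cap n (i + 1) y) : Cap n i (par n y) := by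
  intro k
  obtain ⟨h1, h2⟩ := h k
  have p : (0:ℤ) < 2 ^ n := by positivity
  refine ⟨Int.ediv_nonneg h1 p.le, ?_⟩
  refine Int.ediv_lt_of_lt_mul p ?_
  rw [← pow_add]
  have e : i * n + n = (i + 1) * n := by ring
  rw [e]; exact h2

/-- constants -/
def cst : ℕ → ℝ
  | 0 => 0
  | i + 1 => 5 * (1 + cst i)

theorem cst_nonneg (i : ℕ) : 0 ≤ cst i := by
  induction i with
  | zero => exact le_rfl
  | succ i ih => unfold cst; linarith

theorem cap_zero {y : Z2} {n : ℕ} (h : Cap n 0 y) : y = 0 := by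
  funext k
  obtain ⟨h1, h2⟩ := h k
  simp at h2
  show y k = 0
  omega

/-- the tube of level `j` passes near the starting cell -/
theorem pth_near (n : ℕ) (x : Nd) (hx : x.τ = 0) (j : ℕ) : ∀ (y : Z2), Cap n j y →
    gau 0 (2 ^ (j * n)) (2 ^ (j * n)) (2 ^ (2 * j * n)) (slp n j (pth (slp n) n j x y).τ) (bp n 0 x - bp n j (pth (slp n) n j x y)) ≤
      cst j ∧ (pth (slp n) n j x y).τ = y := by
  induction j with
  | zero =>
    intro y hy
    have e : bp n 0 x - bp n 0 (pth (slp n) n 0 x y) = 0 := by rw [pth_zero, sub_self]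
    have e0 : dv (slp n 0 (pth (slp n) n 0 x y).τ) 0 = 0 := by
      funext i; fin_cases i <;> simp [dv]
    refine ⟨?_, ?_⟩
    · rw [e]
      unfold gau fw fn
      rw [e0]
      simp [cst]
    · rw [pth_zero, hx, cap_zero hy]
  | succ j ih =>
    intro y hy
    obtain ⟨h1, h2⟩ := ih (par n y) (cap_par hy)
    refine ⟨?_, pth_succ_τ j x y⟩
    rw [pth_succ]
    set S := pth (slp n) n j x (par n y) with hS
    have hk : y ∈ kids n (S.sg n).τ := by
      have : (S.sg n).τ = S.τ := rfl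
      rw [this, h2]; exact mem_kids_par n y
    have hpow : (2:ℝ) ^ (j * n) ≤ 2 ^ ((j + 1) * n) := by
      apply pow_le_pow_right₀ (by norm_num); nlinarith
    have := Vale.Agent.P122.AN275.child_gau n j (S.sg n) y hk 0 (2 ^ (j * n)) (2 ^ (j * n)) (by positivity)
      (by positivity) hpow hpow (bp n j S) (Vale.Agent.P122.AN275.bp_near n j S) (Vale.Agent.P122.AN275.bp_two n j S) (bp n 0 x)
    have e1 : nx (slp n) n j S y = (S.sg n).ch (slp n) n j y := rfl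
    rw [e1]
    have e2 : ((S.sg n).ch (slp n) n j y).τ = y := rfl
    rw [e2]
    refine this.trans ?_
    have e3 : slp n j (S.sg n).τ = slp n j S.τ := rfl
    rw [e3]
    unfold cst
    linarith

theorem rg_pth {k n : ℕ} {x : Nd} (hx : x.τ = 0) (hR : Rg k n 0 x) (j : ℕ) : ∀ (y : Z2), j ≤ k → Cap n j y →
    Rg k n j (pth (slp n) n j x y) := by
  induction j with
  | zero => intro y _ _; exact hR
  | succ j ih =>
    intro y hj hy
    have h1 := ih (par n y) (by omega) (cap_par hy)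
    have h2 := (pth_near n x hx j (par n y) (cap_par hy)).2
    rw [pth_succ]
    exact rg_ch (by omega) h1 (by rw [h2]; exact cap_par hy) (by rw [h2]; exact mem_kids_par n y)

/-- the starting cell of the cube `B` -/
def xB (n : ℕ) (B : Fin 3 → ℤ) : Nd := ⟨0, ![2 ^ (2 * n) * B 0, 2 ^ (2 * n) * B 1], 2 ^ (2 * n) * B 2⟩

theorem bp_xB (n : ℕ) (B : Fin 3 → ℤ) : bp n 0 (xB n B) = cB n B := by
  unfold bp cB xB
  simp

theorem rg_xB {k n : ℕ} (hk : 1 ≤ k) {B : Fin 3 → ℤ} (hB : InQ k n B) : Rg k n 0 (xB n B) := by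
  have e : (2:ℤ) ^ (2 * k * n) = 2 ^ (2 * n) * 2 ^ (2 * (k - 1) * n) := by
    rw [← pow_add]; congr 1
    obtain ⟨m, rfl⟩ : ∃ m, k = m + 1 := ⟨k - 1, by omega⟩
    rw [Nat.add_sub_cancel]; ring
  have p : (0:ℤ) < 2 ^ (2 * n) := by positivity
  have hb : ∀ i, 0 ≤ 2 ^ (2 * n) * B i ∧ 2 ^ (2 * n) * B i < 2 ^ (2 * k * n) := by
    intro i
    obtain ⟨h1, h2⟩ := hB i
    rw [e]
    exact ⟨mul_nonneg p.le h1, mul_lt_mul_of_pos_left h2 p⟩
  refine ⟨(hb 2).1, ?_, ?_⟩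
  · rw [Nat.sub_zero]; exact (hb 2).2
  · intro i
    rw [Nat.sub_zero]
    simp only [CharP.cast_eq_zero, mul_zero, add_zero, one_mul]
    fin_cases i
    · show |2 ^ (2 * n) * B 0| ≤ _
      rw [abs_of_nonneg (hb 0).1]; exact (hb 0).2.le
    · show |2 ^ (2 * n) * B 1| ≤ _
      rw [abs_of_nonneg (hb 1).1]; exact (hb 1).2.le

/-- the gauge of the tube of level `j ≥ 2` through the cube `B` -/
theorem gau_pth {n : ℕ} (B : Fin 3 → ℤ) {j : ℕ} (hj : 2 ≤ j) {y : Z2} (hy : Cap n j y) (z : E3) :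
    1 + gau 0 (2 ^ (j * n)) (2 ^ (j * n)) (2 ^ (2 * j * n)) (slp n j (pth (slp n) n j (xB n B) y).τ)
      (z - bp n j (pth (slp n) n j (xB n B) y)) ≤ (3 + cst j) * (1 + l1 (z - cB n B) / 2 ^ (2 * n)) := by
  obtain ⟨h1, h2⟩ := pth_near n (xB n B) rfl j y hy
  rw [bp_xB] at h1
  set S := pth (slp n) n j (xB n B) y with hS
  have p1 : (0:ℝ) < 2 ^ (j * n) := by positivity
  have p3 : (0:ℝ) < 2 ^ (2 * j * n) := by positivity
  have p13 : (2:ℝ) ^ (j * n) ≤ 2 ^ (2 * j * n) := by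
    apply pow_le_pow_right₀ (by norm_num); nlinarith
  have a := gau_add (θ := 0) (s := slp n j S.τ) p1 p1 p3 (z - cB n B) (cB n B - bp n j S)
  rw [sub_add_sub_cancel] at a
  have hs : ∀ k, |slp n j S.τ k| ≤ 1 := by rw [h2]; exact slp_le hy
  have b := gau_le_l1 p1 p13 hs (z - cB n B)
  have hl := l1_nonneg (z - cB n B)
  have c : l1 (z - cB n B) / 2 ^ (j * n) ≤ l1 (z - cB n B) / 2 ^ (2 * n) := by
    refine div_le_div_of_nonneg_left hl (by positivity) ?_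
    apply pow_le_pow_right₀ (by norm_num)
    exact Nat.mul_le_mul_right n hj
  have d : 0 ≤ l1 (z - cB n B) / 2 ^ (2 * n) := by positivity
  have e := cst_nonneg j
  nlinarith [mul_nonneg e d]

/-- **lower bound of the amplitude**: the `L⁶` mean of the piece of the cap `y` of level `j` on the cube `B` is at most the
amplitude of its tube through `B` -/
theorem b6_amp (k : ℕ) (M1 : ℕ) (hM1 : 4 ≤ M1) (M : ℕ) (j : ℕ) (hj : 2 ≤ j) (hjk : j ≤ k) (hM : 3 * ex k M1 j + 4 ≤ M) (C0 : ℝ)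
    (hC : 1 ≤ C0) : ∃ C : ℝ, 0 ≤ C ∧ ∀ (n : ℕ) (g : Z2 → E3 → ℂ), Par C0 k n g → ∀ B : Fin 3 → ℤ, InQ k n B → ∀ y : Z2, Cap n j y →
      b6 M n B (pie k n g j y) ≤ ENNReal.ofReal (C * aR k M1 n g j (pth (slp n) n j (xB n B) y) ^ 6) := by
  obtain ⟨C1, hC1, H1⟩ := pt_of_rep Vale.Agent.P122.R301.stREP k (ex k M1 j) hC
  obtain ⟨C2, hC2, H2⟩ := b6_le_of
  have hc := cst_nonneg j
  refine ⟨C2 * (C1 * (3 + cst j) ^ ex k M1 j) ^ 3, by positivity, ?_⟩
  intro n g hg B hB y hy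
  obtain ⟨-, hτ⟩ := pth_near n (xB n B) rfl j y hy
  have hgau := fun z => gau_pth B hj hy z
  have hRg := rg_pth (k := k) (x := xB n B) rfl (rg_xB (by omega) hB) j y hjk hy
  set S := pth (slp n) n j (xB n B) y with hS
  set a := aR k M1 n g j S with ha
  have ha0 : 0 ≤ a := aR_nonneg _ _
  have hfin := fin_pie (g := g) (n := n) (K := k) Vale.Agent.P122.W840.stWI hM1 j j S S.τ
  have hA2 : am2 (ex k M1 j) n j S (pie k n g j S.τ) = ENNReal.ofReal (a ^ 2) := by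
    rw [ha, aR_sq j S hRg (by rw [hτ]; exact hy), ENNReal.ofReal_toReal hfin.ne]
  have e : ENNReal.ofReal (C2 * (C1 * (3 + cst j) ^ ex k M1 j) ^ 3 * a ^ 6) =
      ENNReal.ofReal C2 * ENNReal.ofReal ((C1 * (3 + cst j) ^ ex k M1 j) ^ 3 * a ^ 6) := by
    rw [mul_assoc, ENNReal.ofReal_mul hC2]
  rw [e]
  refine H2 M n B _ _ fun z => ?_
  rw [wB_eq, wB_eq]
  have hgz := hgau z
  set q := 1 + l1 (z - cB n B) / 2 ^ (2 * n) with hq
  have hq1 : 1 ≤ q := by
    have h5 : 0 ≤ l1 (z - cB n B) / 2 ^ (2 * n) := div_nonneg (l1_nonneg _) (by positivity)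
    linarith
  have h1 := H1 n Set.univ hP id g (srfP hC) hg j hjk S z
  rw [hA2, ← ENNReal.ofReal_mul' (by positivity)] at h1
  have hg0 : 0 ≤ gau 0 (2 ^ (j * n)) (2 ^ (j * n)) (2 ^ (2 * j * n)) (slp n j S.τ) (z - bp n j S) :=
    gau_nonneg (by positivity) (by positivity) (by positivity) _
  have h2 : ‖pie k n g j S.τ z‖ₑ ^ 2 ≤ ENNReal.ofReal (C1 * (3 + cst j) ^ ex k M1 j * q ^ ex k M1 j * a ^ 2) := by
    refine h1.trans (ENNReal.ofReal_le_ofReal ?_)
    refine mul_le_mul_of_nonneg_right ?_ (by positivity)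
    have e7 : C1 * (3 + cst j) ^ ex k M1 j * q ^ ex k M1 j = C1 * ((3 + cst j) * q) ^ ex k M1 j := by
      rw [mul_pow]; ring
    rw [e7]
    exact mul_le_mul_of_nonneg_left (pow_le_pow_left₀ (by linarith) hgz _) hC1
  rw [hτ] at h2
  calc ‖pie k n g j y z‖ₑ ^ 6 * ENNReal.ofReal ((q ^ M)⁻¹) = (‖pie k n g j y z‖ₑ ^ 2) ^ 3 * ENNReal.ofReal ((q ^ M)⁻¹) := by
        rw [← pow_mul]
    _ ≤ ENNReal.ofReal (C1 * (3 + cst j) ^ ex k M1 j * q ^ ex k M1 j * a ^ 2) ^ 3 * ENNReal.ofReal ((q ^ M)⁻¹) := by gcongr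
    _ = ENNReal.ofReal ((C1 * (3 + cst j) ^ ex k M1 j * q ^ ex k M1 j * a ^ 2) ^ 3 * (q ^ M)⁻¹) := by
        rw [← ENNReal.ofReal_pow (by positivity), ← ENNReal.ofReal_mul (by positivity)]
    _ ≤ ENNReal.ofReal ((C1 * (3 + cst j) ^ ex k M1 j) ^ 3 * a ^ 6 * (q ^ 4)⁻¹) := by
        refine ENNReal.ofReal_le_ofReal ?_
        have e2 : (C1 * (3 + cst j) ^ ex k M1 j * q ^ ex k M1 j * a ^ 2) ^ 3 * (q ^ M)⁻¹ =
            (C1 * (3 + cst j) ^ ex k M1 j) ^ 3 * a ^ 6 * (q ^ (3 * ex k M1 j) * (q ^ M)⁻¹) := by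
          rw [mul_comm 3 (ex k M1 j), pow_mul]; ring
        rw [e2]
        refine mul_le_mul_of_nonneg_left ?_ (by positivity)
        rw [← div_eq_mul_inv, div_le_iff₀ (by positivity), inv_mul_eq_div, le_div_iff₀ (by positivity), ← pow_add]
        exact pow_le_pow_right₀ hq1 (by omega)
    _ = _ := by rw [ENNReal.ofReal_mul (by positivity)]

end Vale.Agent.P076.H926
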