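import Vale.Agent.P076.H926.Num
import Vale.Agent.P076.H780.KpDefs

/-! # P076 / H926 : the base case (no hypothesis on the data) -/

set_option autoImplicit false

open MeasureTheory Complex Set Vale.Agent.P122.C2 Vale.Agent.P122.AN Vale.Agent.P076.NS Vale.Agent.P076.H879
open scoped ENNReal NNReal FourierTransform

namespace Vale.Agent.P076.H926

/-- the trivial local estimate -/
theorem lest_base (hCNT : StCNT) (c1 C0 : ℝ) (k M : ℕ) (hc1 : 0 ≤ c1) (hc1' : c1 ≤ 1 / 6) (hC0 : 1 ≤ C0) (hk : 2 ≤ k)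
    (hM : 70 ≤ M) : ∃ C : ℝ, 1 ≤ C ∧ ∀ (br : Prop) (c : ℝ) (n j : ℕ), LEst br c1 C0 c M k n j (C * 2 ^ (20 * k * n : ℝ)) := by
  obtain ⟨C, hC, H⟩ := facts M hM C0 hC0
  refine ⟨C * C, by nlinarith, ?_⟩
  intro br c n j g Y G γ β b hL _
  rcases Y.eq_empty_or_nonempty with hY | hY
  · rw [hY]; simp
  obtain ⟨hm, h6, hf⟩ := H k n j g Y G γ β b hk hL hY
  obtain ⟨-, k2, k3, -⟩ := hCNT k n Y γ (by omega) hL.γ0 hL.dim hL.inQ
  have hγ := hL.γ0
  have hβ := hL.β0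
  set m := (msl k n g).toReal with hmd
  have hC0' : (0:ℝ) < C := by linarith
  have hkn : (0:ℝ) ≤ k * n := by positivity
  have hn2 : 2 * (n:ℝ) ≤ k * n := by
    have : (2:ℝ) ≤ k := by exact_mod_cast hk
    have hn : (0:ℝ) ≤ n := by positivity
    nlinarith
  have hn0 : (0:ℝ) ≤ n := by positivity
  -- β² ≤ C m
  have hβm : β ^ 2 ≤ C * m := by
    by_contra hcon
    push Not at hcon
    have h1 : (C * m) ^ 3 < (β ^ 2) ^ 3 := pow_lt_pow_left₀ hcon (by positivity) (by norm_num)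
    have e : (β ^ 2) ^ 3 = β ^ 6 := by ring
    rw [e] at h1
    have h2 : C * m ^ 3 ≤ (C * m) ^ 3 := by
      rw [mul_pow]
      refine mul_le_mul_of_nonneg_right ?_ (by positivity)
      exact le_self_pow₀ hC (by norm_num)
    linarith
  have hγ2 : (2:ℝ) ^ (-(3 * n : ℝ)) ≤ γ ^ (2 / 3 : ℝ) := by
    have h1 := Real.rpow_le_rpow (by positivity) (k3 hY) (by norm_num : (0:ℝ) ≤ 2 / 3)
    rw [← Real.rpow_mul (by norm_num)] at h1
    refine le_trans ?_ h1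
    refine Real.rpow_le_rpow_of_exponent_le (by norm_num) ?_
    linarith
  set Q : ℝ := C * 2 ^ (6 * (k * n) + 3 * n : ℝ) with hQd
  have p1 : (0:ℝ) < 2 ^ (6 * (k * n) + 3 * n : ℝ) := Real.rpow_pos_of_pos (by norm_num) _
  have hQ : 0 < Q := by positivity
  have hQ1 : 1 ≤ Q := by
    have : (1:ℝ) ≤ 2 ^ (6 * (k * n) + 3 * n : ℝ) := Real.one_le_rpow (by norm_num) (by positivity)
    rw [hQd]
    nlinarith
  have hmain : β ^ 2 * Y.card ≤ Q * γ ^ (2 / 3 : ℝ) * 2 ^ (4 / 3 * (k * n : ℝ)) * m := by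
    have g2 : (1:ℝ) ≤ 2 ^ (4 / 3 * (k * n : ℝ)) := Real.one_le_rpow (by norm_num) (by positivity)
    have e1 : (2:ℝ) ^ (6 * k * n) = 2 ^ (6 * (k * n) + 3 * n : ℝ) * 2 ^ (-(3 * n : ℝ)) := by
      rw [← Real.rpow_natCast, ← Real.rpow_add (by norm_num)]
      congr 1
      push_cast; ring
    calc β ^ 2 * Y.card ≤ (C * m) * 2 ^ (6 * k * n) := by gcongr
      _ = (C * m) * (2 ^ (6 * (k * n) + 3 * n : ℝ) * 2 ^ (-(3 * n : ℝ))) := by rw [e1]
      _ ≤ (C * m) * (2 ^ (6 * (k * n) + 3 * n : ℝ) * γ ^ (2 / 3 : ℝ)) := by gcongr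
      _ = (Q * γ ^ (2 / 3 : ℝ) * 1) * m := by rw [hQd]; ring
      _ ≤ _ := by gcongr
  have two : (1:ℝ) ≤ 2 := by norm_num
  refine lest_of hc1 hc1' hC hCNT hk hL hY hm hf hQ hmain ?_ ?_
  · rw [hQd]
    have h1 : (2:ℝ) ^ (6 * (k * n) + 3 * n : ℝ) ≤ 2 ^ (20 * k * n : ℝ) := by
      refine Real.rpow_le_rpow_of_exponent_le two ?_
      linarith
    have h2 : C ≤ C * C := by nlinarith
    exact mul_le_mul h2 h1 p1.le (by positivity)
  · have h1 : Q ^ (1 - 3 * c1) ≤ Q := by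
      have := Real.rpow_le_rpow_of_exponent_le hQ1 (by linarith : 1 - 3 * c1 ≤ 1)
      rwa [Real.rpow_one] at this
    have h2 : (2:ℝ) ^ (6 * (k * n) + 3 * n : ℝ) * 2 ^ (7 * c1 * n + 16 * c1 * (k * n)) ≤ 2 ^ (20 * k * n : ℝ) := by
      rw [← Real.rpow_add (by norm_num)]
      refine Real.rpow_le_rpow_of_exponent_le two ?_
      have a1 : c1 * n ≤ 1 / 6 * n := by gcongr
      have a2 : c1 * (k * n) ≤ 1 / 6 * (k * n) := by gcongr
      linarith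
    have p2 : (0:ℝ) < 2 ^ (7 * c1 * n + 16 * c1 * (k * n)) := Real.rpow_pos_of_pos (by norm_num) _
    calc Q ^ (1 - 3 * c1) * C * 2 ^ (7 * c1 * n + 16 * c1 * (k * n)) ≤ Q * C * 2 ^ (7 * c1 * n + 16 * c1 * (k * n)) := by gcongr
      _ = C * C * (2 ^ (6 * (k * n) + 3 * n : ℝ) * 2 ^ (7 * c1 * n + 16 * c1 * (k * n))) := by rw [hQd]; ring
      _ ≤ _ := by gcongr

/-- **(T1)** -/
theorem kp1_of (hCNT : StCNT) (hGLOB : StGLOB) : Vale.Agent.P076.H780.StKP1 := by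
  intro c1 C0 k M hc1 hc1' hC0 hk hM
  obtain ⟨C, hC, H⟩ := lest_base hCNT c1 C0 k M hc1 hc1' hC0 hk hM
  obtain ⟨Cg, hCg, HG⟩ := hGLOB
  refine ⟨Cg * C, by positivity, ?_⟩
  intro n j N g Y G γ β b hyp
  have := HG False c1 C0 0 M k n j N (C * 2 ^ (20 * k * n : ℝ)) (by omega) (by positivity) (H False 0 n j) g Y G γ β b hyp
    (fun h => h.elim)
  rwa [← mul_assoc] at this

end Vale.Agent.P076.H926
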