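import Vale.Agent.P076.H926.Brd
import Vale.Agent.P076.H926.T1

/-! # P076 / H926 : the broad case -/

set_option autoImplicit false

open MeasureTheory Complex Set Vale.Agent.P122.C2 Vale.Agent.P122.AN Vale.Agent.P076.NS Vale.Agent.P076.H879
  Vale.Agent.P122.H610
open scoped ENNReal NNReal FourierTransform

namespace Vale.Agent.P076.H926

/-- `StTRIe` at fixed `ε`, `j`, `A`, `K`, with constant `C'` -/
def TriK (ε : ℝ) (j : ℕ) (A : ℝ) (K : ℕ) (c1 C C' : ℝ) : Prop :=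
  ∀ (n : ℕ) (F : Amp C n K) (β Q : ℝ) (X : Finset Nd) (G : Nd → Finset Z2), 0 < β → Brd F j A c1 β X G →
    (∀ U : Finset Nd, ∑ S ∈ U, F.a K S ^ 2 ≤ Q) →
    β ^ 3 * X.card ≤ C' * 2 ^ (ε * (K * n)) * (2 ^ (2 * K * n) * Q) ^ (3 / 2 : ℝ)

/-- `StBG` at fixed parameters -/
def BgK (κ c0 : ℝ) (j : ℕ) (A : ℝ) (K : ℕ) (c1 C C' : ℝ) : Prop :=
  ∀ (n : ℕ) (F : Amp C n K) (β Q : ℝ) (X : Finset Nd) (G : Nd → Finset Z2), 0 < β → Brd F j A c1 β X G →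
    (∀ U : Finset Nd, ∑ S ∈ U, F.a K S ^ 2 ≤ Q) →
    (∀ (r : ℕ) (x0 : Nd), r ≤ 2 * K * n → ((X.filter fun x => |x.T - x0.T| ≤ 2 ^ r ∧ ∀ k, |x.o k - x0.o k| ≤ 2 ^ r).card : ℝ) ≤
      2 ^ (c0 * (K * n)) * 2 ^ (2 * r)) →
    β ^ 2 * X.card ≤ C' * 2 ^ (-(κ * (K * n))) * 2 ^ (4 / 3 * (K * n : ℝ)) * (2 ^ (2 * K * n) * Q)

theorem rpow_cube (x : ℝ) (hx : 0 ≤ x) (a : ℝ) : (x ^ a) ^ 3 = x ^ (3 * a) := by
  rw [← Real.rpow_natCast, ← Real.rpow_mul hx]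
  congr 1
  push_cast; ring

/-- the bound when `γ` is small -/
theorem case_bg {κ c0 y β m γ Cm C6 C' : ℝ} {k n : ℕ} (hβ : 0 < β) (hm : 0 ≤ m)
    (hC6 : 0 < C6) (hC' : 0 ≤ C') (hCm : 0 ≤ Cm) (hγ : (2:ℝ) ^ (-(4 * n : ℝ)) ≤ γ)
    (h : (β / C6) ^ 2 * y ≤ C' * 2 ^ (-(κ * (k * n))) * 2 ^ (4 / 3 * (k * n : ℝ)) * (Cm * m)) :
    β ^ 2 * y ≤ (C6 ^ 2 * C' * Cm) * 2 ^ (-(min κ (c0 / 6) * (k * n)) + 3 * n) * γ ^ (2 / 3 : ℝ) *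
      2 ^ (4 / 3 * (k * n : ℝ)) * m := by
  have two : (1:ℝ) ≤ 2 := by norm_num
  have hγ2 : (2:ℝ) ^ (-(3 * n : ℝ)) ≤ γ ^ (2 / 3 : ℝ) := by
    have h1 := Real.rpow_le_rpow (by positivity) hγ (by norm_num : (0:ℝ) ≤ 2 / 3)
    rw [← Real.rpow_mul (by norm_num)] at h1
    refine le_trans ?_ h1
    refine Real.rpow_le_rpow_of_exponent_le (by norm_num) ?_
    have hn0 : (0:ℝ) ≤ n := by positivity
    linarith
  have e1 : (2:ℝ) ^ (-(κ * (k * n))) ≤ 2 ^ (-(min κ (c0 / 6) * (k * n)) + 3 * n) * γ ^ (2 / 3 : ℝ) := by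
    have e2 : (2:ℝ) ^ (-(κ * (k * n))) ≤ 2 ^ (-(min κ (c0 / 6) * (k * n))) := by
      refine Real.rpow_le_rpow_of_exponent_le two ?_
      have : min κ (c0 / 6) * (k * n : ℝ) ≤ κ * (k * n) := mul_le_mul_of_nonneg_right (min_le_left _ _) (by positivity)
      linarith
    have e3 : (2:ℝ) ^ (-(min κ (c0 / 6) * (k * n))) = 2 ^ (-(min κ (c0 / 6) * (k * n)) + 3 * n) * 2 ^ (-(3 * n : ℝ)) := by
      rw [← Real.rpow_add (by norm_num)]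
      congr 1; ring
    rw [e3] at e2
    refine e2.trans ?_
    gcongr
  have e4 : β ^ 2 * y = C6 ^ 2 * ((β / C6) ^ 2 * y) := by
    field_simp
  rw [e4]
  calc C6 ^ 2 * ((β / C6) ^ 2 * y) ≤ C6 ^ 2 * (C' * 2 ^ (-(κ * (k * n))) * 2 ^ (4 / 3 * (k * n : ℝ)) * (Cm * m)) := by gcongr
    _ ≤ C6 ^ 2 * (C' * (2 ^ (-(min κ (c0 / 6) * (k * n)) + 3 * n) * γ ^ (2 / 3 : ℝ)) * 2 ^ (4 / 3 * (k * n : ℝ)) * (Cm * m)) := by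
        gcongr
    _ = _ := by ring

/-- the bound when `γ` is large -/
theorem case_tri {κ c0 y β m γ Cm C6 C' : ℝ} {k n : ℕ} (hβ : 0 < β) (hm : 0 ≤ m) (hy : 0 ≤ y)
    (hC6 : 0 < C6) (hC' : 0 ≤ C') (hCm : 0 ≤ Cm) (hγ : (2:ℝ) ^ (c0 * (k * n)) ≤ 16 * γ) (hyγ : y ≤ γ * 2 ^ (4 * k * n))
    (h : (β / C6) ^ 3 * y ≤ C' * 2 ^ (c0 / 4 * (k * n)) * (Cm * m) ^ (3 / 2 : ℝ)) :
    β ^ 2 * y ≤ (C6 ^ 2 * (C' + 1) * (Cm + 1) * 3) * 2 ^ (-(min κ (c0 / 6) * (k * n)) + 3 * n) * γ ^ (2 / 3 : ℝ) *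
      2 ^ (4 / 3 * (k * n : ℝ)) * m := by
  have two : (1:ℝ) ≤ 2 := by norm_num
  have hp : (0:ℝ) < 2 ^ (c0 * (k * n)) := Real.rpow_pos_of_pos (by norm_num) _
  have hγ0 : 0 < γ := by linarith
  set p : ℝ := 2 ^ (c0 / 4 * (k * n)) with hpd
  have hp0 : 0 < p := Real.rpow_pos_of_pos (by norm_num) _
  set q : ℝ := 2 ^ (4 / 3 * (k * n : ℝ)) with hqd
  have hq0 : 0 < q := Real.rpow_pos_of_pos (by norm_num) _
  -- the cube of the left side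
  have h1 : (β ^ 2 * y) ^ 3 ≤ (C6 ^ 6 * C' ^ 2 * p ^ 2 * (Cm * m) ^ 3) * (γ * 2 ^ (4 * k * n)) := by
    have e1 : (β ^ 2 * y) ^ 3 = C6 ^ 6 * ((β / C6) ^ 3 * y) ^ 2 * y := by field_simp
    have e2 : ((Cm * m) ^ (3 / 2 : ℝ)) ^ 2 = (Cm * m) ^ 3 := by
      rw [← Real.rpow_natCast, ← Real.rpow_natCast, ← Real.rpow_mul (by positivity)]
      norm_num
    have h2 : ((β / C6) ^ 3 * y) ^ 2 ≤ C' ^ 2 * p ^ 2 * (Cm * m) ^ 3 := by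
      refine (pow_le_pow_left₀ (by positivity) h 2).trans (le_of_eq ?_)
      rw [mul_pow, mul_pow, e2]
    rw [e1]
    calc C6 ^ 6 * ((β / C6) ^ 3 * y) ^ 2 * y ≤ C6 ^ 6 * (C' ^ 2 * p ^ 2 * (Cm * m) ^ 3) * (γ * 2 ^ (4 * k * n)) := by gcongr
      _ = _ := by ring
  -- the cube of the right side
  set r : ℝ := 2 ^ (-(min κ (c0 / 6) * (k * n)) + 3 * n) with hrd
  have hr0 : 0 < r := Real.rpow_pos_of_pos (by norm_num) _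
  have hr : (2:ℝ) ^ (-(c0 / 2 * (k * n))) ≤ r ^ 3 := by
    rw [hrd, rpow_cube _ (by norm_num)]
    refine Real.rpow_le_rpow_of_exponent_le two ?_
    have h3 : min κ (c0 / 6) * (k * n : ℝ) ≤ c0 / 6 * (k * n) := mul_le_mul_of_nonneg_right (min_le_right _ _) (by positivity)
    have hn0 : (0:ℝ) ≤ n := by positivity
    linarith
  have hp2 : p ^ 2 * 2 ^ (-(c0 * (k * n))) = 2 ^ (-(c0 / 2 * (k * n))) := by
    rw [hpd, ← Real.rpow_natCast, ← Real.rpow_mul (by norm_num), ← Real.rpow_add (by norm_num)]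
    congr 1
    push_cast; ring
  have hpr : p ^ 2 ≤ r ^ 3 * 2 ^ (c0 * (k * n)) := by
    have e : p ^ 2 = (p ^ 2 * 2 ^ (-(c0 * (k * n)))) * 2 ^ (c0 * (k * n)) := by
      rw [mul_assoc, ← Real.rpow_add (by norm_num)]
      simp
    rw [e, hp2]
    gcongr
  have hg3 : (γ ^ (2 / 3 : ℝ)) ^ 3 = γ ^ 2 := by
    rw [rpow_cube _ hγ0.le, ← Real.rpow_natCast]
    norm_num
  have hq3 : q ^ 3 = 2 ^ (4 * k * n) := by
    rw [hqd, rpow_cube _ (by norm_num), ← Real.rpow_natCast]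
    congr 1
    push_cast; ring
  by_contra hcon
  push Not at hcon
  have h5 := pow_lt_pow_left₀ hcon (by positivity) (by norm_num : (3:ℕ) ≠ 0)
  have e6 : ((C6 ^ 2 * (C' + 1) * (Cm + 1) * 3) * r * γ ^ (2 / 3 : ℝ) * q * m) ^ 3 =
      (C6 ^ 6 * (C' + 1) ^ 3 * (Cm + 1) ^ 3 * 27) * r ^ 3 * γ ^ 2 * 2 ^ (4 * k * n) * m ^ 3 := by
    rw [← hg3, ← hq3]; ring
  rw [e6] at h5
  have h7 : (C6 ^ 6 * C' ^ 2 * p ^ 2 * (Cm * m) ^ 3) * (γ * 2 ^ (4 * k * n)) ≤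
      (C6 ^ 6 * (C' + 1) ^ 3 * (Cm + 1) ^ 3 * 27) * r ^ 3 * γ ^ 2 * 2 ^ (4 * k * n) * m ^ 3 := by
    have a1 : C' ^ 2 ≤ (C' + 1) ^ 3 := by nlinarith [pow_nonneg hC' 3]
    have a2 : Cm ^ 3 ≤ (Cm + 1) ^ 3 := pow_le_pow_left₀ hCm (by linarith) 3
    have a3 : p ^ 2 ≤ r ^ 3 * (27 * γ) := by
      refine hpr.trans (mul_le_mul_of_nonneg_left ?_ (by positivity))
      linarith
    calc (C6 ^ 6 * C' ^ 2 * p ^ 2 * (Cm * m) ^ 3) * (γ * 2 ^ (4 * k * n))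
        = C6 ^ 6 * C' ^ 2 * Cm ^ 3 * p ^ 2 * (m ^ 3 * γ * 2 ^ (4 * k * n)) := by ring
      _ ≤ C6 ^ 6 * (C' + 1) ^ 3 * (Cm + 1) ^ 3 * (r ^ 3 * (27 * γ)) * (m ^ 3 * γ * 2 ^ (4 * k * n)) := by gcongr
      _ = _ := by ring
  linarith

/-- energy of the last level -/
theorem enr_real {CE : ℝ} {k n : ℕ} {g : Z2 → E3 → ℂ} (hCE : 0 ≤ CE) {U : Finset Nd}
    (h : ∑ S ∈ U, ENNReal.ofReal (aR k 9 n g k S ^ 2) ≤ ENNReal.ofReal (CE * ((2:ℝ) ^ (2 * k * n))⁻¹) * msl k n g) :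
    ∑ S ∈ U, aR k 9 n g k S ^ 2 ≤ CE * ((2:ℝ) ^ (2 * k * n))⁻¹ * (msl k n g).toReal := by
  have hm0 : 0 ≤ (msl k n g).toReal := ENNReal.toReal_nonneg
  rw [← ENNReal.ofReal_sum_of_nonneg (fun _ _ => by positivity), ← ENNReal.ofReal_toReal (msl_lt k n g).ne,
    ← ENNReal.ofReal_mul (by positivity)] at h
  exact (ENNReal.ofReal_le_ofReal_iff (by positivity)).1 h

/-- **the local bound** -/
theorem lbound (hCNT : StCNT) (hENR : StENR) {κ c0 : ℝ} (hc0 : 0 < c0) (k j : ℕ) (hj : 2 ≤ j) (hjk : j ≤ k) (M : ℕ)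
    (hM : 3 * ex k 9 j + 4 ≤ M) (C0 : ℝ) (hC0 : 1 ≤ C0) (c : ℝ) (hc : 0 < c)
    (hT : ∀ C : ℝ, 1 ≤ C → ∃ C' : ℝ, 0 ≤ C' ∧ TriK (c0 / 4) j (2 * j + 3) k (c / 4) C C')
    (hB : ∀ C : ℝ, 1 ≤ C → ∃ C' : ℝ, 0 ≤ C' ∧ BgK κ c0 j (2 * j + 3) k (c / 4) C C') :
    ∃ (n1 : ℕ) (C3 : ℝ), 1 ≤ n1 ∧ 1 ≤ C3 ∧ ∀ n : ℕ, n1 ≤ n → ∀ (j0 : ℕ) (g : Z2 → E3 → ℂ) (Y : Finset (Fin 3 → ℤ))
      (G : (Fin 3 → ℤ) → Finset Z2) (γ β b : ℝ), j0 ≤ j → HL C0 M k n j0 g Y G γ β b → Y.Nonempty →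
      (∀ B ∈ Y, BroadAt c M k n g (G B) β B) →
      β ^ 2 * Y.card ≤ C3 * 2 ^ (-(min κ (c0 / 6) * (k * n)) + 3 * n) * γ ^ (2 / 3 : ℝ) * 2 ^ (4 / 3 * (k * n : ℝ)) *
        (msl k n g).toReal := by
  obtain ⟨CA, hCA, HA⟩ := exists_F k C0 hC0
  obtain ⟨C1, hC1, HT⟩ := hT CA hCA
  obtain ⟨C2, hC2, HB⟩ := hB CA hCA
  obtain ⟨CE, hCE, HE⟩ := hENR k
  obtain ⟨n0, C6, hn0, hC6, H0⟩ := brd_of k j hj hjk M hM C0 hC0 c CA hc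
  obtain ⟨n2, hn2, H2⟩ := exists_n0 (c0 * k) 16 (by
    have : (1:ℝ) ≤ k := by exact_mod_cast (by omega : 1 ≤ k)
    nlinarith)
  refine ⟨n0 + n2, 1 + C6 ^ 2 * C2 * CE + C6 ^ 2 * (C1 + 1) * (CE + 1) * 3, by omega, ?_, ?_⟩
  · have h1 : 0 ≤ C6 ^ 2 * C2 * CE := by positivity
    have h2 : 0 ≤ C6 ^ 2 * (C1 + 1) * (CE + 1) * 3 := by positivity
    linarith
  intro n hn j0 g Y G γ β b hj0 hL hY hbr
  have hβ := hL.β0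
  have hγ := hL.γ0
  obtain ⟨k1, k2, k3, k4⟩ := hCNT k n Y γ (by omega) hγ hL.dim hL.inQ
  obtain ⟨F, hFs, hFa⟩ := HA n g hL.par
  obtain ⟨H, hH⟩ := H0 n (by omega) g Y G β F hFs hFa hL.par hβ hL.inQ hL.sub
    (fun B hB => uni_mono hj0 hjk (hL.uni B hB)) hL.amp hbr
  set m := (msl k n g).toReal with hmd
  have hm0 : 0 ≤ m := ENNReal.toReal_nonneg
  have hE : ∀ U : Finset Nd, ∑ S ∈ U, F.a k S ^ 2 ≤ CE * ((2:ℝ) ^ (2 * k * n))⁻¹ * m := by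
    intro U
    rw [hFa]
    exact enr_real hCE (HE n g hL.par.int U)
  have eQ : (2:ℝ) ^ (2 * k * n) * (CE * ((2:ℝ) ^ (2 * k * n))⁻¹ * m) = CE * m := by field_simp
  have hcard : ((Y.image (xB n)).card : ℝ) = Y.card := by rw [Finset.card_image_of_injective _ (xB_inj n)]
  have hy0 : (0:ℝ) ≤ Y.card := by positivity
  have hβ6 : 0 < β / C6 := by positivity
  set P : ℝ := 2 ^ (-(min κ (c0 / 6) * (k * n)) + 3 * n) * γ ^ (2 / 3 : ℝ) * 2 ^ (4 / 3 * (k * n : ℝ)) * m with hP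
  have hP0 : 0 ≤ P := by positivity
  rcases le_or_gt (8 * (1 + γ)) (2 ^ (c0 * (k * n))) with hcase | hcase
  · have h1 := HB n F (β / C6) _ (Y.image (xB n)) H hβ6 hH hE (by
      intro r x0 hr
      refine (k4 r x0 hr).trans ?_
      gcongr)
    rw [eQ, hcard] at h1
    have h2 := case_bg (c0 := c0) hβ hm0 hC6 hC2 hCE (k3 hY) h1
    have e : (C6 ^ 2 * C2 * CE) * 2 ^ (-(min κ (c0 / 6) * (k * n)) + 3 * n) * γ ^ (2 / 3 : ℝ) * 2 ^ (4 / 3 * (k * n : ℝ)) * m =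
        (C6 ^ 2 * C2 * CE) * P := by rw [hP]; ring
    rw [e] at h2
    refine h2.trans ?_
    have e2 : (1 + C6 ^ 2 * C2 * CE + C6 ^ 2 * (C1 + 1) * (CE + 1) * 3) * 2 ^ (-(min κ (c0 / 6) * (k * n)) + 3 * n) *
        γ ^ (2 / 3 : ℝ) * 2 ^ (4 / 3 * (k * n : ℝ)) * m = (1 + C6 ^ 2 * C2 * CE + C6 ^ 2 * (C1 + 1) * (CE + 1) * 3) * P := by
      rw [hP]; ring
    rw [e2]
    refine mul_le_mul_of_nonneg_right ?_ hP0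
    have h2 : 0 ≤ C6 ^ 2 * (C1 + 1) * (CE + 1) * 3 := by positivity
    linarith
  · have h16 : (16:ℝ) < 2 ^ (c0 * (k * n)) := by
      have := H2 n (by omega)
      rwa [mul_assoc] at this
    have hγ16 : (2:ℝ) ^ (c0 * (k * n)) ≤ 16 * γ := by linarith
    have h1 := HT n F (β / C6) _ (Y.image (xB n)) H hβ6 hH hE
    rw [eQ, hcard] at h1
    have h2 := case_tri (κ := κ) hβ hm0 hy0 hC6 hC1 hCE hγ16 k1 h1
    have e : (C6 ^ 2 * (C1 + 1) * (CE + 1) * 3) * 2 ^ (-(min κ (c0 / 6) * (k * n)) + 3 * n) * γ ^ (2 / 3 : ℝ) *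
        2 ^ (4 / 3 * (k * n : ℝ)) * m = (C6 ^ 2 * (C1 + 1) * (CE + 1) * 3) * P := by rw [hP]; ring
    rw [e] at h2
    refine h2.trans ?_
    have e2 : (1 + C6 ^ 2 * C2 * CE + C6 ^ 2 * (C1 + 1) * (CE + 1) * 3) * 2 ^ (-(min κ (c0 / 6) * (k * n)) + 3 * n) *
        γ ^ (2 / 3 : ℝ) * 2 ^ (4 / 3 * (k * n : ℝ)) * m = (1 + C6 ^ 2 * C2 * CE + C6 ^ 2 * (C1 + 1) * (CE + 1) * 3) * P := by
      rw [hP]; ring
    rw [e2]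
    refine mul_le_mul_of_nonneg_right ?_ hP0
    have h2 : 0 ≤ C6 ^ 2 * C2 * CE := by positivity
    linarith

end Vale.Agent.P076.H926
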