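import Vale.Agent.P076.H926.T2

/-! # P076 / H926 : the broad case, end -/

set_option autoImplicit false

open MeasureTheory Complex Set Vale.Agent.P122.C2 Vale.Agent.P122.AN Vale.Agent.P076.NS Vale.Agent.P076.H879
  Vale.Agent.P122.H610
open scoped ENNReal NNReal FourierTransform

namespace Vale.Agent.P076.H926

theorem lest_mono {br : Prop} {c1 C0 c A A' : ℝ} {M k n j : ℕ} (h : LEst br c1 C0 c M k n j A) (hA : A ≤ A') :
    LEst br c1 C0 c M k n j A' := by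
  intro g Y G γ β b hL hb
  refine (h g Y G γ β b hL hb).trans (mul_le_mul_left (ENNReal.ofReal_le_ofReal ?_) _)
  have h1 := hL.b0
  have h2 := hL.γ0
  gcongr

/-- **the local estimate for broad data** -/
theorem lest_broad (hCNT : StCNT) (hENR : StENR) (hTRI : StTRIe) {κ c0 : ℝ} (hκ : 0 < κ) (hc0 : 0 < c0)
    (hBG : ∀ (j : ℕ) (A : ℝ), 1 ≤ j → ∃ K0 : ℕ, ∀ K : ℕ, K0 ≤ K → ∀ c1 C : ℝ, 0 < c1 → 1 ≤ C → ∃ C' : ℝ, 0 ≤ C' ∧
      BgK κ c0 j A K c1 C C') (J : ℕ) :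
    ∃ K0 : ℕ, 2 ≤ K0 ∧ ∀ k : ℕ, K0 ≤ k → ∃ M0 : ℕ, ∀ M : ℕ, M0 ≤ M → ∀ C0 c : ℝ, 1 ≤ C0 → 0 < c → ∃ C : ℝ, 0 ≤ C ∧
      ∀ n j : ℕ, j ≤ J → LEst True (min (min κ (c0 / 6) / 100) (1 / 6)) C0 c M k n j C := by
  set κ' := min κ (c0 / 6) with hκ'
  have hκ0 : 0 < κ' := lt_min hκ (by linarith)
  set c1 := min (κ' / 100) (1 / 6) with hc1
  have hc10 : 0 < c1 := lt_min (by linarith) (by norm_num)
  have hc16 : c1 ≤ 1 / 6 := min_le_right _ _
  have hc1κ : c1 ≤ κ' / 100 := min_le_left _ _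
  set j := max J 2 with hj
  have hj2 : 2 ≤ j := le_max_right _ _
  have hjJ : J ≤ j := le_max_left _ _
  obtain ⟨K1, hK1⟩ := hBG j (2 * j + 3) (by omega)
  obtain ⟨K2, hK2⟩ := hTRI (c0 / 4) (by linarith) j (2 * j + 3) (by omega)
  obtain ⟨K3, hK3⟩ := exists_nat_gt (15 / κ')
  refine ⟨K1 + K2 + K3 + j, by omega, ?_⟩
  intro k hk
  refine ⟨70 + (3 * ex k 9 j + 4), ?_⟩
  intro M hM C0 c hC0 hc
  have hk15 : 15 ≤ κ' * k := by
    have h1 : (K3:ℝ) ≤ k := by exact_mod_cast (by omega : K3 ≤ k)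
    have h2 : 15 / κ' ≤ k := hK3.le.trans h1
    rw [div_le_iff₀ hκ0] at h2
    linarith
  obtain ⟨n1, C3, hn1, hC3, H1⟩ := lbound hCNT hENR hc0 k j hj2 (by omega) M (by omega) C0 hC0 c hc
    (fun C hC => hK2 k (by omega) (c / 4) C (by linarith) hC) (fun C hC => hK1 k (by omega) (c / 4) C (by linarith) hC)
    (κ := κ)
  obtain ⟨Cf, hCf, HF⟩ := facts M (by omega) C0 hC0
  obtain ⟨Cb, hCb, HB⟩ := lest_base hCNT c1 C0 k M hc10.le hc16 hC0 (by omega) (by omega)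
  have q1 : 0 ≤ C3 * Cf := by positivity
  have q2 : (0:ℝ) ≤ Cb * 2 ^ (20 * k * n1 : ℝ) := by positivity
  refine ⟨C3 * Cf + Cb * 2 ^ (20 * k * n1 : ℝ), by linarith, ?_⟩
  intro n j0 hj0
  rcases lt_or_ge n n1 with hlt | hge
  · refine lest_mono (HB True c n j0) ?_
    have h1 : (2:ℝ) ^ (20 * k * n : ℝ) ≤ 2 ^ (20 * k * n1 : ℝ) := by
      refine Real.rpow_le_rpow_of_exponent_le (by norm_num) ?_
      have : (n:ℝ) ≤ n1 := by exact_mod_cast hlt.le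
      gcongr
    have : Cb * 2 ^ (20 * k * n : ℝ) ≤ Cb * 2 ^ (20 * k * n1 : ℝ) := by gcongr
    linarith
  · refine lest_mono (A := C3 * Cf) ?_ (by linarith)
    intro g Y G γ β b hL hbr
    rcases Y.eq_empty_or_nonempty with hY | hY
    · rw [hY]; simp
    obtain ⟨hm, -, hf⟩ := HF k n j0 g Y G γ β b (by omega) hL hY
    have hmain := H1 n hge j0 g Y G γ β b (by omega) hL hY (hbr trivial)
    rw [← hκ'] at hmain
    set E : ℝ := -(κ' * (k * n)) + 3 * n with hE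
    have p0 : (0:ℝ) < 2 ^ E := Real.rpow_pos_of_pos (by norm_num) _
    have hn0 : (0:ℝ) ≤ n := by positivity
    have hkn : 15 * (n:ℝ) ≤ κ' * (k * n) := by
      have := mul_le_mul_of_nonneg_right hk15 hn0
      linarith
    have hE0 : E ≤ 0 := by rw [hE]; linarith
    have hQ : 0 < C3 * 2 ^ E := by positivity
    have hE1 : (2:ℝ) ^ E ≤ 1 := Real.rpow_le_one_of_one_le_of_nonpos (by norm_num) hE0
    refine lest_of hc10.le hc16 hCf hCNT (by omega) hL hY hm hf (Q := C3 * 2 ^ E) (A := C3 * Cf) hQ hmain ?_ ?_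
    · have : C3 * 2 ^ E ≤ C3 * Cf := mul_le_mul_of_nonneg_left (hE1.trans hCf) (by linarith)
      exact this
    · have h1 : (C3 * 2 ^ E) ^ (1 - 3 * c1) ≤ C3 * 2 ^ ((1 - 3 * c1) * E) := by
        rw [Real.mul_rpow (by linarith) p0.le, ← Real.rpow_mul (by norm_num), mul_comm E]
        refine mul_le_mul_of_nonneg_right ?_ (Real.rpow_nonneg (by norm_num) _)
        have := Real.rpow_le_rpow_of_exponent_le hC3 (by linarith : 1 - 3 * c1 ≤ 1)
        rwa [Real.rpow_one] at this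
      have h2 : (2:ℝ) ^ ((1 - 3 * c1) * E) * 2 ^ (7 * c1 * n + 16 * c1 * (k * n)) ≤ 1 := by
        rw [← Real.rpow_add (by norm_num)]
        refine Real.rpow_le_one_of_one_le_of_nonpos (by norm_num) ?_
        have a1 : (1 - 3 * c1) * E ≤ 1 / 2 * E := mul_le_mul_of_nonpos_right (by linarith) hE0
        have a2 : c1 * (k * n : ℝ) ≤ κ' / 100 * (k * n) := mul_le_mul_of_nonneg_right hc1κ (by positivity)
        have a3 : c1 * (n : ℝ) ≤ 1 / 6 * n := mul_le_mul_of_nonneg_right hc16 hn0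
        linarith
      have p2 : (0:ℝ) < 2 ^ (7 * c1 * n + 16 * c1 * (k * n)) := Real.rpow_pos_of_pos (by norm_num) _
      calc (C3 * 2 ^ E) ^ (1 - 3 * c1) * Cf * 2 ^ (7 * c1 * n + 16 * c1 * (k * n))
          ≤ (C3 * 2 ^ ((1 - 3 * c1) * E)) * Cf * 2 ^ (7 * c1 * n + 16 * c1 * (k * n)) := by gcongr
        _ = C3 * Cf * (2 ^ ((1 - 3 * c1) * E) * 2 ^ (7 * c1 * n + 16 * c1 * (k * n))) := by ring
        _ ≤ C3 * Cf * 1 := by gcongr
        _ = C3 * Cf := mul_one _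

/-- **(T2)** -/
theorem kp2_of (hCNT : StCNT) (hGLOB : StGLOB) (hENR : StENR) (hTRI : StTRIe) (hBG : StBG) :
    Vale.Agent.P076.H780.StKP2 := by
  obtain ⟨κ, c0, hκ, hc0, hBG⟩ := hBG
  obtain ⟨Cg, hCg, HG⟩ := hGLOB
  refine ⟨min (min κ (c0 / 6) / 100) (1 / 6), ?_, min_le_right _ _, ?_⟩
  · exact lt_min (div_pos (lt_min hκ (by linarith)) (by norm_num)) (by norm_num)
  intro J
  obtain ⟨K0, hK2, H⟩ := lest_broad hCNT hENR hTRI hκ hc0 hBG J
  refine ⟨K0, ?_⟩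
  intro k hk
  obtain ⟨M0, HM⟩ := H k hk
  refine ⟨M0, ?_⟩
  intro M hM C0 c hC0 hc
  obtain ⟨C, hC, HC⟩ := HM M hM C0 c hC0 hc
  refine ⟨Cg * C, by positivity, ?_⟩
  intro n N j hj g Y G γ β b hyp hbr
  exact HG True _ C0 c M k n j N C (by omega) hC (HC n j hj) g Y G γ β b hyp (fun _ => hbr)

end Vale.Agent.P076.H926
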